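import Vale.Agent.P338.R2.H778.Bits

namespace Vale.Agent.P338.R2.H525

open H778 (val bits)

def zeros (n : ℕ) : List Bool := List.replicate n false

def ones (n : ℕ) : List Bool := List.replicate n true

def padTo (n : ℕ) (x : List Bool) : List Bool := x ++ zeros (n - x.length)

def slotAt (W : ℕ) (x : List Bool) (t : ℕ) : List Bool := (x.drop (t * W)).take W

structure Dim where
  K : ℕ
  s : ℕ
  G : ℕ
  h : ℕ

namespace Dim

variable (D : Dim)

def P : ℕ := 2 ^ D.s
def L : ℕ := 2 ^ D.h
def tau : ℕ := 2 * D.L / D.P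
def W : ℕ := 64 * D.L
def R : ℕ := 2 * D.P * D.G
def S1 : ℕ := D.P * (D.R + 1) + 2 * D.P * D.R
def S2 : ℕ := D.P * D.R + (D.P * (D.R + 1) + 2 * D.P * D.R)

def pos1 (k r g c : ℕ) : ℕ := k * D.S1 + r * D.R + g * (2 * D.P) + c
def pos2 (k r g c : ℕ) : ℕ := k * D.S2 + r * D.R + g * (2 * D.P) + c

def eG (d : ℕ) : ℕ := D.tau * (d ^ 2 % (2 * D.P))
def eMid (q c : ℕ) : ℕ :=
  D.tau * (2 * D.P - (2 * q * (q + (2 * D.P * c - c))) % (2 * D.P))
def ePost (x y : ℕ) : ℕ := D.tau * (2 * D.P - (x ^ 2 + y ^ 2) % (2 * D.P))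

end Dim

def inputBits (D : Dim) (V : ℕ → ℕ → ℕ → ℕ → List Bool) : List Bool :=
  (List.range D.K).flatMap fun k => (List.range D.P).flatMap fun x =>
    (List.range D.G).flatMap fun g => (List.range D.P).flatMap fun y => V k x g y

def packBits (D : Dim) (V : ℕ → ℕ → ℕ → ℕ → List Bool) : List Bool :=
  (List.range D.K).flatMap fun k =>
    ((List.range D.P).flatMap fun x =>
      ((List.range D.G).flatMap fun g =>
        ((List.range D.P).flatMap fun y => zeros (63 * D.L - 1) ++ V k x g y ++ [true])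
          ++ zeros (D.P * D.W))
        ++ zeros D.W)
      ++ zeros (2 * D.P * D.R * D.W)

def pattern (L : ℕ) : List Bool :=
  (List.range 6).flatMap fun _ => zeros (2 * L) ++ ones (2 * L)

def genBits1 (D : Dim) : List Bool :=
  (List.range (2 * D.P)).flatMap fun d =>
    (zeros (D.W - 1 - D.eG d) ++ [true] ++ zeros (D.eG d)) ++ zeros ((D.R - 1) * D.W)

def genBits2 (D : Dim) : List Bool :=
  (List.range (2 * D.P)).flatMap fun d =>
    (zeros (40 * D.L - D.eG d) ++ pattern D.L ++ zeros (D.eG d)) ++ zeros ((D.R - 1) * D.W)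

def midBits (D : Dim) (z : List Bool) : List Bool :=
  (List.range D.K).flatMap fun k =>
    ((List.range D.P).flatMap fun q => (List.range D.G).flatMap fun g =>
      (List.range (2 * D.P)).flatMap fun c =>
        (slotAt D.W z (1 + D.pos1 k (D.P + q) g c)).drop (D.eMid q c) ++ zeros (D.eMid q c))
      ++ zeros ((D.P * (D.R + 1) + 2 * D.P * D.R) * D.W)

def postBits (D : Dim) (z : List Bool) : List Bool :=
  (List.range D.K).flatMap fun k => (List.range D.P).flatMap fun y =>
    (List.range D.G).flatMap fun g => (List.range D.P).flatMap fun x =>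
      ((slotAt D.W z (1 + D.pos2 k (D.P + y) g (y + x))).drop
        (41 * D.L - (D.s + 1) + D.ePost x y)).take D.L

def mulBits (n : ℕ) (x y : List Bool) : List Bool := bits (2 * n) (val (padTo n x) * val (padTo n y))

def roundBits (D : Dim) (n : ℕ) (V : ℕ → ℕ → ℕ → ℕ → List Bool) : List Bool :=
  postBits D (mulBits n (midBits D (mulBits n (packBits D V) (genBits1 D))) (genBits2 D))

end Vale.Agent.P338.R2.H525
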