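import Vale.Agent.P338.R2.H525.Lists

namespace Vale.Agent.P338.R2.H525

theorem flatMap_range_mul {α : Type*} (m n : ℕ) (f : ℕ → List α) :
    (List.range (m * n)).flatMap f =
      (List.range m).flatMap fun i => (List.range n).flatMap fun j => f (i * n + j) := by
  induction m with
  | zero => simp
  | succ m ih =>
    rw [Nat.succ_mul, List.range_add, List.flatMap_append, ih, List.range_succ,
      List.flatMap_append]
    simp [List.flatMap_map]

theorem map_range_mul {α : Type*} (m n : ℕ) (f : ℕ → α) :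
    (List.range (m * n)).map f =
      (List.range m).flatMap fun i => (List.range n).map fun j => f (i * n + j) := by
  have := flatMap_range_mul m n (fun i => [f i])
  rw [List.map_eq_flatMap, this]
  apply List.flatMap_congr
  intro i _
  rw [List.map_eq_flatMap]

theorem flatMap_range_divmod {α : Type*} (m n : ℕ) (f : ℕ → ℕ → List α) :
    (List.range (m * n)).flatMap (fun g => f (g / n) (g % n)) =
      (List.range m).flatMap fun i => (List.range n).flatMap fun j => f i j := by
  rw [flatMap_range_mul]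
  apply List.flatMap_congr
  intro i _
  apply List.flatMap_congr
  intro j hj
  rw [List.mem_range] at hj
  have h1 : (i * n + j) / n = i := by
    rw [mul_comm, Nat.mul_add_div (by omega), Nat.div_eq_of_lt hj, add_zero]
  have h2 : (i * n + j) % n = j := by
    rw [mul_comm, Nat.mul_add_mod, Nat.mod_eq_of_lt hj]
  rw [h1, h2]

/-- The matrix stored with the index bits `≥ h` of row and column exchanged. -/
def dBits (l h : ℕ) (M : ℕ → ℕ → Bool) : List Bool :=
  (List.range (2 ^ l)).flatMap fun i => (List.range (2 ^ l)).map fun j =>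
    M (j / 2 ^ h * 2 ^ h + i % 2 ^ h) (i / 2 ^ h * 2 ^ h + j % 2 ^ h)

/-- the dimensions of the exchange of the bits `h - s, …, h - 1` -/
def dimOf (l h s : ℕ) : Dim := ⟨2 ^ (l - h), s, 2 ^ (h - s) * 2 ^ (l - h), h - s⟩

/-- The words before the exchange. -/
def wordOf (l h s : ℕ) (M : ℕ → ℕ → Bool) (k x g y : ℕ) : List Bool :=
  (List.range (2 ^ (h - s))).map fun c =>
    M (g % 2 ^ (l - h) * 2 ^ h + x * 2 ^ (h - s) + g / 2 ^ (l - h))
      (k * 2 ^ h + y * 2 ^ (h - s) + c)

theorem length_wordOf (l h s : ℕ) (M : ℕ → ℕ → Bool) (k x g y : ℕ) :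
    (wordOf l h s M k x g y).length = (dimOf l h s).L := by
  simp [wordOf, dimOf, Dim.L]

theorem dBits_top (l : ℕ) (M : ℕ → ℕ → Bool) :
    dBits l l M = (List.range (2 ^ l)).flatMap fun i => (List.range (2 ^ l)).map fun j => M i j := by
  unfold dBits
  apply List.flatMap_congr
  intro i hi
  apply List.map_congr_left
  intro j hj
  rw [List.mem_range] at hi hj
  rw [Nat.div_eq_of_lt hi, Nat.div_eq_of_lt hj, Nat.mod_eq_of_lt hi, Nat.mod_eq_of_lt hj]
  simp

theorem dBits_zero (l : ℕ) (M : ℕ → ℕ → Bool) :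
    dBits l 0 M = (List.range (2 ^ l)).flatMap fun i => (List.range (2 ^ l)).map fun j => M j i := by
  unfold dBits
  simp [Nat.mod_one]

theorem grid (K P L : ℕ) (F : ℕ → ℕ → Bool) :
    ((List.range (K * P * L)).flatMap fun i => (List.range (K * P * L)).map fun j => F i j) =
    (List.range K).flatMap fun k => (List.range P).flatMap fun x => (List.range L).flatMap fun b =>
      (List.range K).flatMap fun a => (List.range P).flatMap fun y => (List.range L).map fun c =>
        F ((k * P + x) * L + b) ((a * P + y) * L + c) := by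
  rw [flatMap_range_mul (K * P) L, flatMap_range_mul K P]
  apply List.flatMap_congr
  intro k _
  apply List.flatMap_congr
  intro x _
  apply List.flatMap_congr
  intro b _
  rw [map_range_mul, flatMap_range_mul]

theorem dBits_eq_input (l h s : ℕ) (hs : s ≤ h) (hl : h ≤ l) (M : ℕ → ℕ → Bool) :
    dBits l h M = inputBits (dimOf l h s) (wordOf l h s M) := by
  have e1 : 2 ^ l = 2 ^ (l - h) * 2 ^ s * 2 ^ (h - s) := by
    rw [← pow_add, ← pow_add]; congr 1; omega
  have e2 : 2 ^ h = 2 ^ s * 2 ^ (h - s) := by rw [← pow_add]; congr 1; omega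
  rw [dBits, e1, grid, inputBits]
  show _ = (List.range (2 ^ (l - h))).flatMap fun k => (List.range (2 ^ s)).flatMap fun x =>
    (List.range (2 ^ (h - s) * 2 ^ (l - h))).flatMap fun g => (List.range (2 ^ s)).flatMap fun y =>
      (List.range (2 ^ (h - s))).map fun c =>
        M (g % 2 ^ (l - h) * 2 ^ h + x * 2 ^ (h - s) + g / 2 ^ (l - h))
          (k * 2 ^ h + y * 2 ^ (h - s) + c)
  apply List.flatMap_congr
  intro k _
  apply List.flatMap_congr
  intro x hx
  rw [flatMap_range_divmod (2 ^ (h - s)) (2 ^ (l - h)) (fun b a =>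
    (List.range (2 ^ s)).flatMap fun y => (List.range (2 ^ (h - s))).map fun c =>
        M (a * 2 ^ h + x * 2 ^ (h - s) + b) (k * 2 ^ h + y * 2 ^ (h - s) + c))]
  apply List.flatMap_congr
  intro b hb
  apply List.flatMap_congr
  intro a _
  apply List.flatMap_congr
  intro y hy
  apply List.map_congr_left
  intro c hc
  rw [List.mem_range] at hx hb hy hc
  have key : ∀ u v w : ℕ, v < 2 ^ s → w < 2 ^ (h - s) →
      ((u * 2 ^ s + v) * 2 ^ (h - s) + w) / 2 ^ h = u ∧
      ((u * 2 ^ s + v) * 2 ^ (h - s) + w) % 2 ^ h = v * 2 ^ (h - s) + w := by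
    intro u v w hv hw
    have h1 : (u * 2 ^ s + v) * 2 ^ (h - s) + w = 2 ^ h * u + (v * 2 ^ (h - s) + w) := by
      rw [e2]; ring
    have h2 : v * 2 ^ (h - s) + w < 2 ^ h := by
      rw [e2]
      calc v * 2 ^ (h - s) + w < v * 2 ^ (h - s) + 2 ^ (h - s) := by omega
        _ = (v + 1) * 2 ^ (h - s) := by ring
        _ ≤ 2 ^ s * 2 ^ (h - s) := Nat.mul_le_mul_right _ hv
    rw [h1]
    constructor
    · rw [Nat.mul_add_div (by positivity), Nat.div_eq_of_lt h2, add_zero]
    · rw [Nat.mul_add_mod, Nat.mod_eq_of_lt h2]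
  rw [(key k x b hx hb).1, (key k x b hx hb).2, (key a y c hy hc).1, (key a y c hy hc).2]
  congr 1 <;> ring

theorem dBits_eq_swapped (l h s : ℕ) (hs : s ≤ h) (hl : h ≤ l) (M : ℕ → ℕ → Bool) :
    dBits l (h - s) M = inputBits (dimOf l h s) (fun k x g y => wordOf l h s M k y g x) := by
  have e1 : 2 ^ l = 2 ^ (l - h) * 2 ^ s * 2 ^ (h - s) := by
    rw [← pow_add, ← pow_add]; congr 1; omega
  have e2 : 2 ^ h = 2 ^ s * 2 ^ (h - s) := by rw [← pow_add]; congr 1; omega
  rw [dBits, e1, grid, inputBits]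
  show _ = (List.range (2 ^ (l - h))).flatMap fun k => (List.range (2 ^ s)).flatMap fun x =>
    (List.range (2 ^ (h - s) * 2 ^ (l - h))).flatMap fun g => (List.range (2 ^ s)).flatMap fun y =>
      (List.range (2 ^ (h - s))).map fun c =>
        M (g % 2 ^ (l - h) * 2 ^ h + y * 2 ^ (h - s) + g / 2 ^ (l - h))
          (k * 2 ^ h + x * 2 ^ (h - s) + c)
  apply List.flatMap_congr
  intro k _
  apply List.flatMap_congr
  intro x hx
  rw [flatMap_range_divmod (2 ^ (h - s)) (2 ^ (l - h)) (fun b a =>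
    (List.range (2 ^ s)).flatMap fun y => (List.range (2 ^ (h - s))).map fun c =>
        M (a * 2 ^ h + y * 2 ^ (h - s) + b) (k * 2 ^ h + x * 2 ^ (h - s) + c))]
  apply List.flatMap_congr
  intro b hb
  apply List.flatMap_congr
  intro a _
  apply List.flatMap_congr
  intro y hy
  apply List.map_congr_left
  intro c hc
  rw [List.mem_range] at hx hb hy hc
  have key : ∀ u w : ℕ, w < 2 ^ (h - s) →
      (u * 2 ^ (h - s) + w) / 2 ^ (h - s) = u ∧ (u * 2 ^ (h - s) + w) % 2 ^ (h - s) = w := by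
    intro u w hw
    rw [mul_comm]
    constructor
    · rw [Nat.mul_add_div (by positivity), Nat.div_eq_of_lt hw, add_zero]
    · rw [Nat.mul_add_mod, Nat.mod_eq_of_lt hw]
  rw [(key _ b hb).1, (key _ b hb).2, (key _ c hc).1, (key _ c hc).2, e2]
  congr 1 <;> ring

theorem dimOf_K (l h s : ℕ) : (dimOf l h s).K = 2 ^ (l - h) := rfl
theorem dimOf_P (l h s : ℕ) : (dimOf l h s).P = 2 ^ s := rfl
theorem dimOf_L (l h s : ℕ) : (dimOf l h s).L = 2 ^ (h - s) := rfl
theorem dimOf_G (l h s : ℕ) : (dimOf l h s).G = 2 ^ (h - s) * 2 ^ (l - h) := rfl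

theorem dimOf_size (l h s : ℕ) (hs : s ≤ h) (hl : h ≤ l) :
    (dimOf l h s).K * ((dimOf l h s).P * ((dimOf l h s).G * ((dimOf l h s).P *
      (dimOf l h s).L))) = 4 ^ l := by
  rw [dimOf_K, dimOf_P, dimOf_L, dimOf_G, show (4 : ℕ) = 2 ^ 2 by norm_num, ← pow_mul]
  simp only [← pow_add]
  congr 1
  omega

theorem dim_bound (D : Dim) (hG : 0 < D.G) :
    D.K * D.S2 * D.W ≤ 576 * (D.K * (D.P * (D.G * (D.P * D.L)))) := by
  have hP : 0 < D.P := by unfold Dim.P; positivity
  have h1 : D.S2 ≤ 9 * (D.P * (D.G * D.P)) := by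
    have h2 : D.S2 = 8 * (D.P * (D.G * D.P)) + D.P := by
      unfold Dim.S2 Dim.R; ring
    have h3 : D.P * 1 ≤ D.P * (D.G * D.P) := Nat.mul_le_mul_left _ (Nat.mul_pos hG hP)
    omega
  calc D.K * D.S2 * D.W ≤ D.K * (9 * (D.P * (D.G * D.P))) * D.W :=
        Nat.mul_le_mul_right _ (Nat.mul_le_mul_left _ h1)
    _ = 576 * (D.K * (D.P * (D.G * (D.P * D.L)))) := by unfold Dim.W; ring

theorem dim_bound' (D : Dim) (hK : 0 < D.K) :
    2 * D.P * D.R * D.W ≤ 576 * (D.K * (D.P * (D.G * (D.P * D.L)))) := by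
  have h1 : 1 * (256 * (D.P * (D.G * (D.P * D.L)))) ≤ D.K * (256 * (D.P * (D.G * (D.P * D.L)))) :=
    Nat.mul_le_mul_right _ hK
  have h2 : 2 * D.P * D.R * D.W = 256 * (D.P * (D.G * (D.P * D.L))) := by
    unfold Dim.W Dim.R; ring
  have h3 : D.K * (256 * (D.P * (D.G * (D.P * D.L)))) = 256 * (D.K * (D.P * (D.G * (D.P * D.L)))) := by
    ring
  omega

end Vale.Agent.P338.R2.H525
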