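import Vale.Agent.P338.R2.H778.Core

namespace Vale.Agent.P338.R2.H525

open H778 (Fm theta theta_zpow_congr theta_cast theta_eG sum_theta_zpow aa Z1 Z1_lt eG eG_lt kap
  extract aa_lt sum_lt_aux two_pow_s_le)

section

variable (h s : ℕ)

/-- The middle twist. -/
def eMid' (q c : ℕ) : ℕ :=
  2 ^ (h + 1 - s) * (2 * 2 ^ s - (2 * q * (q + (2 * 2 ^ s * c - c))) % (2 * 2 ^ s))

/-- The final twist. -/
def ePost' (x y : ℕ) : ℕ :=
  2 ^ (h + 1 - s) * (2 * 2 ^ s - (x ^ 2 + y ^ 2) % (2 * 2 ^ s))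

variable (v : ℕ → ℕ → ℕ)

def Z2' (q c : ℕ) : ℕ := Z1 h s v q c * 2 ^ eMid' h s q c

def Z3' (y c : ℕ) : ℕ := ∑ q ∈ Finset.range (2 ^ s), Z2' h s v q c * 2 ^ eG h s (2 ^ s + y - q)

variable {h s}

theorem four_L (hs : s ≤ h) : 2 ^ (h + 1 - s) * (2 * 2 ^ s) = 4 * 2 ^ h := by
  have h1 : 2 ^ (h + 1 - s) * 2 ^ s = 2 ^ (h + 1) := by
    rw [← pow_add]
    congr 1
    omega
  calc 2 ^ (h + 1 - s) * (2 * 2 ^ s) = 2 * (2 ^ (h + 1 - s) * 2 ^ s) := by ring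
    _ = 2 * 2 ^ (h + 1) := by rw [h1]
    _ = _ := by ring

theorem eMid'_le (hs : s ≤ h) (q c : ℕ) : eMid' h s q c ≤ 4 * 2 ^ h := by
  rw [← four_L hs]
  exact Nat.mul_le_mul_left _ (Nat.sub_le _ _)

theorem ePost'_le (hs : s ≤ h) (x y : ℕ) : ePost' h s x y ≤ 4 * 2 ^ h := by
  rw [← four_L hs]
  exact Nat.mul_le_mul_left _ (Nat.sub_le _ _)

theorem Z2'_lt (hs : s ≤ h) (hv : ∀ x y, v x y < 2 ^ 2 ^ h) (q c : ℕ) :
    Z2' h s v q c < 2 ^ (10 * 2 ^ h + 1) := by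
  have h1 := Z1_lt v hs hv q c
  have h2 : 2 ^ eMid' h s q c ≤ 2 ^ (4 * 2 ^ h) :=
    Nat.pow_le_pow_right (by norm_num) (eMid'_le hs q c)
  calc Z2' h s v q c < 2 ^ (6 * 2 ^ h + 1) * 2 ^ (4 * 2 ^ h) :=
        Nat.mul_lt_mul_of_lt_of_le h1 h2 (by positivity)
    _ = 2 ^ (10 * 2 ^ h + 1) := by rw [← pow_add]; congr 1; ring

theorem Z3'_lt (hs : s ≤ h) (hv : ∀ x y, v x y < 2 ^ 2 ^ h) (y c : ℕ) :
    Z3' h s v y c < 2 ^ (15 * 2 ^ h + 1) := by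
  have h1 := sum_lt_aux (n := 2 ^ s) (by positivity) (f := fun q => Z2' h s v q c)
    (g := fun q => eG h s (2 ^ s + y - q)) (a := 10 * 2 ^ h + 1) (b := h)
    (fun x _ => Z2'_lt v hs hv x c) (fun x _ => eG_lt hs _)
  refine lt_of_lt_of_le h1 ?_
  calc 2 ^ s * 2 ^ (10 * 2 ^ h + 1 + 4 * 2 ^ h) ≤ 2 ^ 2 ^ h * 2 ^ (10 * 2 ^ h + 1 + 4 * 2 ^ h) :=
        Nat.mul_le_mul_right _ (two_pow_s_le hs)
    _ = 2 ^ (15 * 2 ^ h + 1) := by rw [← pow_add]; congr 1; ring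

theorem theta_cast_neg (hs : s ≤ h) (n : ℕ) (t : ℤ) (hn : (n : ℤ) ≡ -t [ZMOD (2 * 2 ^ s : ℕ)]) :
    ((2 ^ (2 ^ (h + 1 - s) * (2 * 2 ^ s - n % (2 * 2 ^ s))) : ℕ) : ZMod (Fm (2 * 2 ^ h))) =
      ((theta h s) ^ t : (ZMod (Fm (2 * 2 ^ h)))ˣ) := by
  rw [theta_cast]
  congr 1
  apply theta_zpow_congr h s hs
  have hlt : n % (2 * 2 ^ s) < 2 * 2 ^ s := Nat.mod_lt _ (by positivity)
  rw [Nat.cast_sub hlt.le]
  have h1 : (((n % (2 * 2 ^ s) : ℕ)) : ℤ) = (n : ℤ) % ((2 * 2 ^ s : ℕ) : ℤ) := by push_cast; rfl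
  have h2 : (((n % (2 * 2 ^ s) : ℕ)) : ℤ) ≡ -t [ZMOD (2 * 2 ^ s : ℕ)] := by
    rw [h1]
    exact (Int.mod_modEq _ _).trans hn
  have h3 : (((2 * 2 ^ s : ℕ)) : ℤ) ≡ 0 [ZMOD (2 * 2 ^ s : ℕ)] := by
    exact (Int.modEq_zero_iff_dvd).2 dvd_rfl
  have := h3.sub h2
  simpa using this

theorem theta_eMid' (hs : s ≤ h) (q c : ℕ) :
    ((2 ^ eMid' h s q c : ℕ) : ZMod (Fm (2 * 2 ^ h))) =
      ((theta h s) ^ (2 * (q : ℤ) * (c - q)) : (ZMod (Fm (2 * 2 ^ h)))ˣ) := by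
  rw [eMid']
  apply theta_cast_neg hs
  have h1 : ((2 * 2 ^ s * c - c : ℕ) : ℤ) = 2 * 2 ^ s * c - c := by
    rw [Nat.cast_sub]
    · push_cast
      ring
    · have : 1 ≤ 2 * 2 ^ s := by
        have : 0 < 2 ^ s := by positivity
        omega
      exact Nat.le_mul_of_pos_left _ this
  push_cast [h1]
  refine Int.ModEq.symm ((Int.modEq_iff_dvd).2 ⟨2 * q * c, ?_⟩)
  ring

theorem theta_ePost' (hs : s ≤ h) (x y : ℕ) :
    ((2 ^ ePost' h s x y : ℕ) : ZMod (Fm (2 * 2 ^ h))) =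
      ((theta h s) ^ (-((x : ℤ) ^ 2 + (y : ℤ) ^ 2)) : (ZMod (Fm (2 * 2 ^ h)))ˣ) := by
  rw [ePost']
  apply theta_cast_neg hs
  push_cast
  rw [neg_neg]

theorem Z3'_cast (hs : s ≤ h) (hs1 : 1 ≤ s) (y c : ℕ) :
    ((Z3' h s v y c : ℕ) : ZMod (Fm (2 * 2 ^ h))) =
      ∑ x ∈ Finset.range (2 ^ s), (aa s v x c : ZMod (Fm (2 * 2 ^ h))) *
        (((theta h s) ^ ((x : ℤ) ^ 2 + (y : ℤ) ^ 2) : (ZMod (Fm (2 * 2 ^ h)))ˣ) *
        ∑ q ∈ Finset.range (2 ^ s), (((theta h s) ^ (2 * (q : ℤ) * ((c : ℤ) - x - y)) :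
          (ZMod (Fm (2 * 2 ^ h)))ˣ) : ZMod (Fm (2 * 2 ^ h)))) := by
  have h1 : ((Z3' h s v y c : ℕ) : ZMod (Fm (2 * 2 ^ h))) =
      ∑ q ∈ Finset.range (2 ^ s), ∑ x ∈ Finset.range (2 ^ s),
        (aa s v x c : ZMod (Fm (2 * 2 ^ h))) *
        (((theta h s) ^ ((x : ℤ) ^ 2 + (y : ℤ) ^ 2) : (ZMod (Fm (2 * 2 ^ h)))ˣ) *
        (((theta h s) ^ (2 * (q : ℤ) * ((c : ℤ) - x - y)) :
          (ZMod (Fm (2 * 2 ^ h)))ˣ) : ZMod (Fm (2 * 2 ^ h)))) := by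
    rw [Z3', Nat.cast_sum]
    apply Finset.sum_congr rfl
    intro q hq
    rw [Finset.mem_range] at hq
    rw [Nat.cast_mul, theta_eG hs hs1 y q hq, Z2', Nat.cast_mul, theta_eMid' hs, Z1,
      Nat.cast_sum, Finset.sum_mul, Finset.sum_mul]
    apply Finset.sum_congr rfl
    intro x hx
    rw [Finset.mem_range] at hx
    rw [Nat.cast_mul, theta_eG hs hs1 q x hx, mul_assoc, mul_assoc]
    congr 1
    rw [← Units.val_mul, ← Units.val_mul, ← Units.val_mul, ← zpow_add, ← zpow_add, ← zpow_add]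
    congr 2
    ring
  rw [h1, Finset.sum_comm]
  apply Finset.sum_congr rfl
  intro x _
  rw [Finset.mul_sum, Finset.mul_sum]

theorem Z3'_mod (hs : s ≤ h) (hs1 : 1 ≤ s) (x y : ℕ) (hx : x < 2 ^ s) (hy : y < 2 ^ s) :
    Z3' h s v y (y + x) * 2 ^ ePost' h s x y ≡ 2 ^ s * (2 * v x y + 1)
      [MOD 2 ^ (2 * 2 ^ h) + 1] := by
  rw [← ZMod.natCast_eq_natCast_iff]
  rw [Nat.cast_mul]
  have hpost := theta_ePost' hs x y
  have hsum : ((Z3' h s v y (y + x) : ℕ) : ZMod (Fm (2 * 2 ^ h))) =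
      (aa s v x (y + x) : ZMod (Fm (2 * 2 ^ h))) *
        (((theta h s) ^ ((x : ℤ) ^ 2 + (y : ℤ) ^ 2) : (ZMod (Fm (2 * 2 ^ h)))ˣ) *
          (2 ^ s : ZMod (Fm (2 * 2 ^ h)))) := by
    rw [Z3'_cast v hs hs1, Finset.sum_eq_single x]
    · congr 2
      have : ((y + x : ℕ) : ℤ) - x - y = 0 := by push_cast; ring
      rw [this]
      simp
    · intro x' hx' hne
      rw [Finset.mem_range] at hx'
      by_cases ha : x' ≤ y + x ∧ y + x - x' < 2 ^ s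
      · rw [sum_theta_zpow h s hs]
        · ring
        · intro h0
          apply hne
          have : ((y + x : ℕ) : ℤ) - x' - y = (x : ℤ) - x' := by push_cast; ring
          rw [this] at h0
          omega
        · push_cast
          have h2 : (x' : ℤ) < 2 ^ s := by exact_mod_cast hx'
          have h3 : (0 : ℤ) ≤ x := by positivity
          linarith
        · push_cast
          have h2 : (x : ℤ) < 2 ^ s := by exact_mod_cast hx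
          have h3 : (0 : ℤ) ≤ x' := by positivity
          linarith
      · rw [aa, if_neg ha]
        simp
    · intro hx'
      exact absurd (Finset.mem_range.2 hx) hx'
  rw [hsum, hpost]
  have ha : aa s v x (y + x) = 2 * v x y + 1 := by
    rw [aa, if_pos ⟨by omega, by omega⟩]
    congr 3
    omega
  rw [ha]
  have hcancel : (((theta h s) ^ ((x : ℤ) ^ 2 + (y : ℤ) ^ 2) : (ZMod (Fm (2 * 2 ^ h)))ˣ) :
      ZMod (Fm (2 * 2 ^ h))) *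
      ((theta h s) ^ (-((x : ℤ) ^ 2 + (y : ℤ) ^ 2)) : (ZMod (Fm (2 * 2 ^ h)))ˣ) = 1 := by
    rw [← Units.val_mul, ← zpow_add, add_neg_cancel, zpow_zero, Units.val_one]
  push_cast
  linear_combination (2 * (v x y : ZMod (Fm (2 * 2 ^ h))) + 1) * (2 : ZMod (Fm (2 * 2 ^ h))) ^ s * hcancel

/-- **The number-level core of one round.** -/
theorem core' (hs : s ≤ h) (hs1 : 1 ≤ s) (hv : ∀ x y, v x y < 2 ^ 2 ^ h) (x y : ℕ)
    (hx : x < 2 ^ s) (hy : y < 2 ^ s) :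
    (kap (2 ^ h) * Z3' h s v y (y + x)) / 2 ^ (22 * 2 ^ h + (s + 1) - ePost' h s x y) % 2 ^ 2 ^ h =
      v x y := by
  have hL : 2 ≤ 2 ^ h := by
    calc 2 = 2 ^ 1 := by norm_num
      _ ≤ 2 ^ h := Nat.pow_le_pow_right (by norm_num) (by omega)
  apply extract (2 ^ h) (2 ^ s) (s + 1) (ePost' h s x y) _ _ hL (by rw [pow_succ]; ring)
    (Nat.pow_le_pow_right (by norm_num) hs) (ePost'_le hs x y) _ (hv x y)
    (Z3'_mod v hs hs1 x y hx hy)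
  refine lt_of_lt_of_le (Z3'_lt v hs hv y (y + x)) (Nat.pow_le_pow_right (by norm_num) (by omega))

end

end Vale.Agent.P338.R2.H525
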