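import Vale.Agent.P338.R2.H525.Pack

namespace Vale.Agent.P338.R2.H525

open H778 (val bits slots conv spread)

theorem conv_spread' (R n : ℕ) (hR : 0 < R) (γ f : ℕ → ℕ) (t : ℕ) :
    conv f (spread R n γ) t =
      ∑ d ∈ Finset.range n, if d * R ≤ t then f (t - d * R) * γ d else 0 := by
  have h1 : t = t / R * R + t % R := by rw [mul_comm]; exact (Nat.div_add_mod t R).symm
  have h2 := H778.conv_spread R n γ f (t / R) (t % R) (Nat.mod_lt _ hR)
  rw [← h1] at h2
  rw [h2]
  apply Finset.sum_congr rfl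
  intro d _
  have h3 : d ≤ t / R ↔ d * R ≤ t := Nat.le_div_iff_mul_le hR
  by_cases h : d * R ≤ t
  · rw [if_pos (h3.2 h), if_pos h]
    congr 2
    rw [Nat.sub_mul]
    have := h3.2 h
    have h4 : d * R ≤ t / R * R := Nat.mul_le_mul_right _ this
    omega
  · rw [if_neg (fun hh => h (h3.1 hh)), if_neg h]

/-- Generic row convolution: `f` at the rows `r < 2 P` of block `k` is `φ r` for `r < P` and `0`
otherwise, and `f` vanishes on the `2 P` rows before the block. -/
theorem conv_rows (P R : ℕ) (hR : 0 < R) (γ f : ℕ → ℕ) (φ : ℕ → ℕ) (B q m : ℕ) (hq : q < P)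
    (hm : m < R) (hf : ∀ r < 2 * P, f (B + r * R + m) = if r < P then φ r else 0)
    (hf0 : ∀ j, 0 < j → j ≤ 2 * P * R → j ≤ B → f (B - j) = 0) :
    conv f (spread R (2 * P) γ) (B + (P + q) * R + m) =
      ∑ x ∈ Finset.range P, φ x * γ (P + q - x) := by
  rw [conv_spread' R _ hR]
  have h1 : ∀ d ∈ Finset.range (2 * P), (if d * R ≤ B + (P + q) * R + m then
      f (B + (P + q) * R + m - d * R) * γ d else 0) =
      if d ≤ P + q ∧ P + q - d < P then φ (P + q - d) * γ d else 0 := by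
    intro d hd
    rw [Finset.mem_range] at hd
    by_cases hdq : d ≤ P + q
    · have h2 : d * R ≤ (P + q) * R := Nat.mul_le_mul_right _ hdq
      have h3 : (P + q - d) * R + d * R = (P + q) * R := by rw [← add_mul]; congr 1; omega
      have h4 : B + (P + q) * R + m - d * R = B + (P + q - d) * R + m := by omega
      rw [if_pos (by omega), h4, hf _ (by omega)]
      by_cases h : P + q - d < P
      · rw [if_pos h, if_pos ⟨hdq, h⟩]
      · rw [if_neg h, if_neg (fun h' => h h'.2), zero_mul]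
    · rw [if_neg (fun h' : _ ∧ _ => hdq h'.1)]
      split_ifs with h
      · obtain ⟨u, hu⟩ : ∃ u, d = P + q + 1 + u := ⟨d - (P + q + 1), by omega⟩
        have h3 : d * R = (P + q) * R + (u + 1) * R := by rw [hu]; ring
        have h5 : (u + 1) * R = u * R + R := by ring
        have h4 : B + (P + q) * R + m - d * R = B - ((u + 1) * R - m) := by omega
        rw [h4, hf0 _ (by omega) _ (by omega), zero_mul]
        calc (u + 1) * R - m ≤ (u + 1) * R := Nat.sub_le _ _
          _ ≤ 2 * P * R := Nat.mul_le_mul_right _ (by omega)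
      · rfl
  rw [Finset.sum_congr rfl h1, ← Finset.sum_filter]
  refine Finset.sum_bij' (fun d _ => P + q - d) (fun x _ => P + q - x) ?_ ?_ ?_ ?_ ?_
  · intro d hd
    simp only [Finset.mem_filter, Finset.mem_range] at hd ⊢
    omega
  · intro x hx
    simp only [Finset.mem_filter, Finset.mem_range] at hx ⊢
    omega
  · intro d hd
    simp only [Finset.mem_filter, Finset.mem_range] at hd ⊢
    omega
  · intro x hx
    simp only [Finset.mem_range] at hx ⊢
    omega
  · intro d hd
    simp only [Finset.mem_filter, Finset.mem_range] at hd ⊢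
    have : P + q - (P + q - d) = d := by omega
    rw [this]

/-- first product -/
def Z1 (D : Dim) (v : ℕ → ℕ → ℕ → ℕ) (q g c : ℕ) : ℕ :=
  ∑ x ∈ Finset.range D.P, shear D v x g c * 2 ^ D.eG (D.P + q - x)

def Z2 (D : Dim) (v : ℕ → ℕ → ℕ → ℕ) (q g c : ℕ) : ℕ := Z1 D v q g c * 2 ^ D.eMid q c

def Kc (D : Dim) : ℕ := val (pattern D.L)

def U (D : Dim) (v : ℕ → ℕ → ℕ → ℕ) (y g c : ℕ) : ℕ :=
  ∑ q ∈ Finset.range D.P, Z2 D v q g c * (Kc D * 2 ^ D.eG (D.P + y - q))

theorem pos_lt_R (D : Dim) (g c : ℕ) (hg : g < D.G) (hc : c < 2 * D.P) :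
    g * (2 * D.P) + c < D.R := by
  have hR : D.R = D.G * (2 * D.P) := by unfold Dim.R; ring
  rw [hR]
  calc g * (2 * D.P) + c < g * (2 * D.P) + 2 * D.P := by omega
    _ = (g + 1) * (2 * D.P) := by ring
    _ ≤ D.G * (2 * D.P) := Nat.mul_le_mul_right _ hg

theorem R_pos (D : Dim) (hG : 0 < D.G) : 0 < D.R := by
  have := D.P_pos
  unfold Dim.R; positivity

theorem conv1 (D : Dim) (v : ℕ → ℕ → ℕ → ℕ → ℕ) (γ : ℕ → ℕ) (k q g c : ℕ) (hk : k < D.K)
    (hq : q < D.P) (hg : g < D.G) (hc : c < 2 * D.P) :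
    conv (dig1 D v) (spread D.R (2 * D.P) γ) (D.pos1 k (D.P + q) g c) =
      ∑ x ∈ Finset.range D.P, shear D (v k) x g c * γ (D.P + q - x) := by
  have hm := pos_lt_R D g c hg hc
  have h := conv_rows D.P D.R (by omega) γ (dig1 D v) (fun r => shear D (v k) r g c) (k * D.S1) q
    (g * (2 * D.P) + c) hq hm ?_ ?_
  · rw [← h]; congr 1; unfold Dim.pos1; ring
  · intro r hr
    have := dig1_shear D v k r g c hk hr hg hc
    rw [add_assoc] at this
    rw [this]
    by_cases h : r < D.P
    · rw [if_pos h]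
    · rw [if_neg h, shear, if_neg (fun h' => h h'.1)]
  · intro j hj hj' hjk
    exact dig1_before D v k j hk hj hj' hjk

theorem genBits_eq (D : Dim) (hG : 0 < D.G) (γ : ℕ → ℕ) (b : ℕ → List Bool)
    (hb : ∀ d < 2 * D.P, b d = bits D.W (γ d)) :
    (List.range (2 * D.P)).flatMap (fun d => b d ++ zeros ((D.R - 1) * D.W)) =
      slots D.W (2 * D.P * D.R) (spread D.R (2 * D.P) γ) := by
  have hR := R_pos D hG
  rw [H778.slots_mul]
  apply List.flatMap_congr
  intro d hd
  rw [List.mem_range] at hd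
  obtain ⟨R', hR'⟩ : ∃ R', D.R = 1 + R' := ⟨D.R - 1, by omega⟩
  have h1 : slots D.W D.R (fun j => spread D.R (2 * D.P) γ (d * D.R + j)) =
      bits D.W (γ d) ++ slots D.W R' (fun _ => 0) := by
    conv_lhs => rw [hR', H778.slots_add]
    congr 1
    · rw [show (1 : ℕ) = 0 + 1 from rfl, H778.slots_succ]
      have := H778.spread_mul D.R (2 * D.P) hR γ d hd
      rw [hR'] at this
      simp only [H778.slots_zero, List.nil_append, add_zero]
      rw [← this]
    · apply H778.slots_congr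
      intro i hi
      have h5 : (d * (1 + R') + (1 + i)) % (1 + R') = 1 + i := by
        rw [Nat.mul_comm, Nat.mul_add_mod, Nat.mod_eq_of_lt (by omega)]
      unfold spread
      rw [if_neg]
      rintro ⟨h2, _⟩
      rw [h5] at h2
      omega
  rw [h1, hb d hd]
  congr 1
  have : D.R - 1 = R' := by omega
  rw [this, zeros_mul, slots]
  clear this h1 hR'
  induction R' with
  | zero => rfl
  | succ m ih => rw [List.range_succ, List.flatMap_append, ← ih, List.replicate_succ',
      List.flatMap_append]; simp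

/-- the second digit list -/
def block2 (D : Dim) (z : ℕ → ℕ → ℕ → ℕ) : List ℕ :=
  ((List.range D.P).flatMap fun q => (List.range D.G).flatMap fun g =>
    (List.range (2 * D.P)).map fun c => z q g c) ++
    List.replicate (D.P * (D.R + 1) + 2 * D.P * D.R) 0

def digits2 (D : Dim) (z : ℕ → ℕ → ℕ → ℕ → ℕ) : List ℕ :=
  (List.range D.K).flatMap fun k => block2 D (z k)

theorem length_row2 (D : Dim) (z : ℕ → ℕ → ℕ) :
    ((List.range D.G).flatMap fun g => (List.range (2 * D.P)).map fun c => z g c).length =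
      D.R := by
  rw [length_flatMap_const _ (2 * D.P) _ (fun g _ => by simp)]
  unfold Dim.R; ring

theorem length_block2 (D : Dim) (z : ℕ → ℕ → ℕ → ℕ) : (block2 D z).length = D.S2 := by
  rw [block2, List.length_append, length_flatMap_const _ D.R _ (fun q _ => length_row2 D (z q)),
    List.length_replicate]
  rfl

theorem length_digits2 (D : Dim) (z : ℕ → ℕ → ℕ → ℕ → ℕ) :
    (digits2 D z).length = D.K * D.S2 :=
  length_flatMap_const _ _ _ (fun k _ => length_block2 D (z k))

def dig2 (D : Dim) (z : ℕ → ℕ → ℕ → ℕ → ℕ) (i : ℕ) : ℕ := (digits2 D z).getD i 0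

theorem dig2_of_le (D : Dim) (z : ℕ → ℕ → ℕ → ℕ → ℕ) (i : ℕ) (h : D.K * D.S2 ≤ i) :
    dig2 D z i = 0 := getD_of_le _ _ _ (by rw [length_digits2]; exact h)

theorem dig2_block (D : Dim) (z : ℕ → ℕ → ℕ → ℕ → ℕ) (k j : ℕ) (hk : k < D.K) (hj : j < D.S2) :
    dig2 D z (k * D.S2 + j) = (block2 D (z k)).getD j 0 :=
  getD_flatMap_range _ _ _ _ (fun k _ => length_block2 D (z k)) _ _ hk hj

theorem block2_pad (D : Dim) (z : ℕ → ℕ → ℕ → ℕ) (j : ℕ) (hj : D.P * D.R ≤ j) :
    (block2 D z).getD j 0 = 0 := by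
  have h1 := length_flatMap_const D.P D.R _ (fun q _ => length_row2 D (z q))
  rw [block2, getD_append_right' _ _ _ _ (by rw [h1]; exact hj), getD_replicate']

theorem block2_row (D : Dim) (z : ℕ → ℕ → ℕ → ℕ) (r g c : ℕ) (hg : g < D.G) (hc : c < 2 * D.P) :
    (block2 D z).getD (r * D.R + g * (2 * D.P) + c) 0 = if r < D.P then z r g c else 0 := by
  have hm := pos_lt_R D g c hg hc
  have h1 := length_flatMap_const D.P D.R _ (fun q _ => length_row2 D (z q))
  by_cases hr : r < D.P
  · rw [if_pos hr, block2, add_assoc, getD_append_left', getD_flatMap_range _ _ _ _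
      (fun q _ => length_row2 D (z q)) _ _ hr hm, getD_flatMap_range _ _ _ _
      (fun g _ => by simp) _ _ hg hc, getD_map_range _ _ _ _ hc]
    rw [h1]
    calc r * D.R + (g * (2 * D.P) + c) < r * D.R + D.R := by omega
      _ = (r + 1) * D.R := by ring
      _ ≤ D.P * D.R := Nat.mul_le_mul_right _ hr
  · rw [if_neg hr]
    apply block2_pad
    have : D.P * D.R ≤ r * D.R := Nat.mul_le_mul_right _ (by omega)
    omega

theorem dig2_row (D : Dim) (z : ℕ → ℕ → ℕ → ℕ → ℕ) (k r g c : ℕ) (hk : k < D.K)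
    (hr : r < 2 * D.P) (hg : g < D.G) (hc : c < 2 * D.P) :
    dig2 D z (k * D.S2 + r * D.R + g * (2 * D.P) + c) = if r < D.P then z k r g c else 0 := by
  have hm := pos_lt_R D g c hg hc
  have h1 : r * D.R + D.R ≤ 2 * D.P * D.R := by
    calc r * D.R + D.R = (r + 1) * D.R := by ring
      _ ≤ 2 * D.P * D.R := Nat.mul_le_mul_right _ hr
  have e : k * D.S2 + r * D.R + g * (2 * D.P) + c = k * D.S2 + (r * D.R + g * (2 * D.P) + c) := by
    ring
  rw [e, dig2_block D z k _ hk, block2_row D (z k) r g c hg hc]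
  unfold Dim.S2
  omega

theorem dig2_before (D : Dim) (z : ℕ → ℕ → ℕ → ℕ → ℕ) (k j : ℕ) (hk : k < D.K) (hj : 0 < j)
    (hj' : j ≤ 2 * D.P * D.R) (hjk : j ≤ k * D.S2) :
    dig2 D z (k * D.S2 - j) = 0 := by
  obtain ⟨k', rfl⟩ : ∃ k', k = k' + 1 := by
    refine ⟨k - 1, ?_⟩
    rcases Nat.eq_zero_or_pos k with h | h
    · subst h; simp at hjk; omega
    · omega
  have hS : D.S2 = D.P * D.R + (D.P * (D.R + 1) + 2 * D.P * D.R) := rfl
  have e : (k' + 1) * D.S2 - j = k' * D.S2 + (D.S2 - j) := by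
    have : (k' + 1) * D.S2 = k' * D.S2 + D.S2 := by ring
    omega
  rw [e, dig2_block D z k' _ (by omega) (by omega)]
  apply block2_pad
  omega

theorem conv2 (D : Dim) (z : ℕ → ℕ → ℕ → ℕ → ℕ) (γ : ℕ → ℕ) (k y g c : ℕ) (hk : k < D.K)
    (hy : y < D.P) (hg : g < D.G) (hc : c < 2 * D.P) :
    conv (dig2 D z) (spread D.R (2 * D.P) γ) (D.pos2 k (D.P + y) g c) =
      ∑ q ∈ Finset.range D.P, z k q g c * γ (D.P + y - q) := by
  have hm := pos_lt_R D g c hg hc
  have h := conv_rows D.P D.R (by omega) γ (dig2 D z) (fun r => z k r g c) (k * D.S2) y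
    (g * (2 * D.P) + c) hy hm ?_ ?_
  · rw [← h]; congr 1; unfold Dim.pos2; ring
  · intro r hr
    have := dig2_row D z k r g c hk hr hg hc
    rw [add_assoc] at this
    exact this
  · intro j hj hj' hjk
    exact dig2_before D z k j hk hj hj' hjk

end Vale.Agent.P338.R2.H525
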