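import Vale.Agent.P338.R2.H525.Spec
import Vale.Agent.P338.R2.H778.Round

namespace Vale.Agent.P338.R2.H525

open H778 (val bits slots conv spread)

section lists

variable {α β : Type*}

theorem length_flatMap_const (n m : ℕ) (f : ℕ → List α) (hf : ∀ i < n, (f i).length = m) :
    ((List.range n).flatMap f).length = n * m := by
  induction n with
  | zero => simp
  | succ n ih =>
    rw [List.range_succ, List.flatMap_append, List.length_append, ih (fun i hi => hf i (by omega))]
    simp [hf n (by omega), Nat.succ_mul]

theorem getD_append_left' (l l' : List α) (i : ℕ) (d : α) (h : i < l.length) :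
    (l ++ l').getD i d = l.getD i d := by
  rw [List.getD_append _ _ _ _ h]

theorem getD_append_right' (l l' : List α) (i : ℕ) (d : α) (h : l.length ≤ i) :
    (l ++ l').getD i d = l'.getD (i - l.length) d := by
  rw [List.getD_append_right _ _ _ _ h]

theorem getD_flatMap_range (n m : ℕ) (f : ℕ → List α) (d : α) (hf : ∀ i < n, (f i).length = m)
    (i j : ℕ) (hi : i < n) (hj : j < m) :
    ((List.range n).flatMap f).getD (i * m + j) d = (f i).getD j d := by
  induction n with
  | zero => omega
  | succ n ih =>
    have hlen := length_flatMap_const n m f (fun i hi => hf i (by omega))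
    rw [List.range_succ, List.flatMap_append]
    rcases Nat.lt_or_ge i n with h | h
    · rw [getD_append_left', ih (fun i hi => hf i (by omega)) h]
      rw [hlen]
      calc i * m + j < i * m + m := by omega
        _ = (i + 1) * m := by ring
        _ ≤ n * m := Nat.mul_le_mul_right _ h
    · have : i = n := by omega
      subst this
      rw [getD_append_right' _ _ _ _ (by rw [hlen]; omega), hlen]
      simp

theorem getD_replicate' (n i : ℕ) (a : α) : (List.replicate n a).getD i a = a := by
  simp only [List.getD_eq_getElem?_getD, List.getElem?_replicate]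
  split_ifs <;> rfl

theorem getD_map_range (n i : ℕ) (f : ℕ → α) (d : α) (hi : i < n) :
    ((List.range n).map f).getD i d = f i := by
  simp [List.getD_eq_getElem?_getD, hi]

theorem getD_of_le (l : List α) (i : ℕ) (d : α) (h : l.length ≤ i) : l.getD i d = d := by
  rw [List.getD_eq_getElem?_getD, List.getElem?_eq_none h]
  rfl

end lists

theorem zeros_append (a b : ℕ) : zeros a ++ zeros b = zeros (a + b) := by
  simp [zeros, List.replicate_append_replicate]

@[simp] theorem length_zeros (a : ℕ) : (zeros a).length = a := by simp [zeros]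

theorem bits_zero' (w : ℕ) : bits w 0 = zeros w := H778.bits_zero w

theorem zeros_mul (n W : ℕ) : zeros (n * W) = (List.replicate n 0).flatMap (bits W) := by
  induction n with
  | zero => simp [zeros]
  | succ n ih =>
    rw [List.replicate_succ, List.flatMap_cons, ← ih, bits_zero', zeros_append, Nat.succ_mul,
      Nat.add_comm]

theorem val_zeros (n : ℕ) : val (zeros n) = 0 := by
  rw [← bits_zero', H778.val_bits, Nat.zero_mod]

theorem flatMap_bits_eq_slots (W : ℕ) (xs : List ℕ) :
    xs.flatMap (bits W) = slots W xs.length (fun i => xs.getD i 0) := by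
  induction xs using List.reverseRecOn with
  | nil => rfl
  | append_singleton xs x ih =>
    rw [List.flatMap_append, ih, List.length_append, List.length_singleton, H778.slots_succ]
    congr 1
    · apply H778.slots_congr
      intro i hi
      rw [getD_append_left' _ _ _ _ hi]
    · rw [getD_append_right' _ _ _ _ le_rfl]
      simp

theorem val_padTo (n : ℕ) (x : List Bool) : val (padTo n x) = val x * 2 ^ (n - x.length) := by
  rw [padTo, H778.val_append, val_zeros, length_zeros, add_zero]

theorem slotAt_append_left (W : ℕ) (x y : List Bool) (t : ℕ) (h : (t + 1) * W ≤ x.length) :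
    slotAt W (x ++ y) t = slotAt W x t := by
  have h1 : t * W ≤ x.length := le_trans (Nat.mul_le_mul_right _ (Nat.le_succ t)) h
  have h2 : W ≤ x.length - t * W := by
    have : (t + 1) * W = t * W + W := by ring
    omega
  rw [slotAt, slotAt, List.drop_append_of_le_length h1, List.take_append_of_le_length]
  rw [List.length_drop]
  exact h2

theorem slotAt_slots (W n : ℕ) (f : ℕ → ℕ) (t : ℕ) (h : t < n) :
    slotAt W (slots W n f) t = bits W (f t) := by
  have h1 : n = t + (1 + (n - t - 1)) := by omega
  rw [h1, H778.slots_add, slotAt]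
  have h2 : t * W = (slots W t f).length := by rw [H778.length_slots]; ring
  rw [h2, List.drop_left, H778.slots_add]
  have h3 : slots W 1 (fun i => f (t + i)) = bits W (f t) := by
    rw [show (1 : ℕ) = 0 + 1 from rfl, H778.slots_succ]; simp
  rw [h3]
  exact List.take_left' (H778.length_bits W _)

theorem slotAt_cons (W : ℕ) (x y : List Bool) (t : ℕ) (h : x.length = W) :
    slotAt W (x ++ y) (t + 1) = slotAt W y t := by
  have : (t + 1) * W = x.length + t * W := by rw [h]; ring
  rw [slotAt, this, List.drop_append, slotAt, List.drop_eq_nil_of_le (Nat.le_add_right _ _)]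
  simp

/-- slots of the padded product -/
theorem slotAt_mulBits (W n N : ℕ) (f g : ℕ → ℕ) (N1 N2 : ℕ) (hN : 0 < N) (h1 : N1 ≤ N)
    (h2 : N2 ≤ N) (hn : W * N ≤ n)
    (hf : ∀ i, N1 ≤ i → f i = 0) (hg : ∀ i, N2 ≤ i → g i = 0)
    (hf' : ∀ i, f i < 2 ^ W) (hg' : ∀ i, g i < 2 ^ W)
    (hc : ∀ c, conv f g c < 2 ^ W) (t : ℕ) (ht : t < 2 * N - 1) :
    slotAt W (mulBits n (slots W N1 f) (slots W N2 g)) (1 + t) = bits W (conv f g t) := by
  have e1 : ∀ (M : ℕ) (F : ℕ → ℕ), M ≤ N → (∀ i, M ≤ i → F i = 0) → (∀ i, F i < 2 ^ W) →
      val (padTo n (slots W M F)) = val (slots W N F) * 2 ^ (n - W * N) := by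
    intro M F hM hF hF'
    rw [val_padTo, H778.length_slots]
    obtain ⟨m, rfl⟩ := Nat.exists_eq_add_of_le hM
    have : slots W (M + m) F = slots W M F ++ zeros (W * m) := by
      rw [H778.slots_add]
      congr 1
      rw [show W * m = m * W by ring, zeros_mul]
      rw [H778.slots_congr (g := fun _ => 0) (fun i _ => hF _ (by omega)), slots,
        List.flatMap_replicate, ← List.flatMap_replicate]
      clear hn hM h1 h2 hN ht
      induction m with
      | zero => rfl
      | succ m ih => rw [List.range_succ, List.flatMap_append, ih, List.replicate_succ',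
          List.flatMap_append]; simp
    rw [this, H778.val_append, val_zeros, length_zeros, add_zero, mul_assoc, ← pow_add]
    congr 2
    rw [mul_add] at hn ⊢
    omega
  rw [mulBits, e1 N1 f h1 hf hf', e1 N2 g h2 hg hg']
  have e2 : val (slots W N f) * 2 ^ (n - W * N) * (val (slots W N g) * 2 ^ (n - W * N)) =
      val (slots W N f) * val (slots W N g) * 2 ^ (2 * (n - W * N)) + 0 := by
    rw [two_mul, pow_add]; ring
  have e3 : 2 * n = 2 * (W * N) + 2 * (n - W * N) := by omega
  rw [e2, e3, H778.bits_add' _ _ _ _ (by positivity),
    H778.bits_mul_slots W N hN f g (fun i hi => hf i (by omega)) (fun i hi => hg i (by omega))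
      (fun i _ => hf' i) (fun i _ => hg' i) (fun c _ => hc c), Nat.add_comm 1 t,
    slotAt_append_left, slotAt_cons _ _ _ _ (H778.length_bits _ _), slotAt_slots _ _ _ _ ht]
  rw [List.length_append, H778.length_bits, H778.length_slots]
  have : (t + 1 + 1) * W = W + (t + 1) * W := by ring
  rw [this]
  have : (t + 1) * W ≤ (2 * N - 1) * W := Nat.mul_le_mul_right _ ht
  have h5 : W * (2 * N - 1) = (2 * N - 1) * W := by ring
  omega

end Vale.Agent.P338.R2.H525
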