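import Vale.Agent.P338.R2.H784.Unary

/-!
P338: programs for the change of the format of square matrices: the side length of a square, and
the insertion of separators.
-/

namespace Vale.Agent.P338.R2.H525

open Vale.Agent.P338.R2.H898 Vale.Agent.P338.R2.H784
open Function (update)

set_option linter.unusedSectionVars false

variable {M F α : Type} [DecidableEq F] {d : α}

/-- Advance on `f` by `2 k + 1` cells, where `k` is the length of the ruler `a`, and lengthen the
ruler. -/
def oddStep (f a : F) (u : α) : Prog M F α :=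
  .seq (op a .rew) (.seq (.loop (fun _ r => (r a).isSome)
    (.seq (op f .right) (.seq (op f .right) (op a .right))))
    (.seq (op f .right) (put a u)))

/-- Write a ruler whose length is the square root of the length of the file `f`. -/
def rootP (f a : F) (u : α) : Prog M F α := .loop (fun _ r => (r f).isSome) (oddStep f a u)

theorem tri_right_at {f : F} {s : Store M F α} {xs : List α} {i : ℕ} (hi : i < xs.length)
    (h : s.z f = at' xs i) :
    Tri d (op f .right) s 1 (fun s' => s'.z f = at' xs (i + 1) ∧ Keep [f] s s') :=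
  (tri_op f .right s).post fun _ ⟨h1, h2⟩ => ⟨by rw [h1, h, at'_right hi], h2⟩

theorem tri_oddStep {f a : F} (hfa : f ≠ a) {u : α} {s : Store M F α} {xs : List α} {k : ℕ}
    (hk : k * k + 2 * k + 1 ≤ xs.length) (hf : s.z f = at' xs (k * k)) (ha : Len u k 0 (s.z a)) :
    Tri d (oddStep f a u) s (4 * k + 5) (fun s' => s'.z f = at' xs ((k + 1) * (k + 1)) ∧
      Len u (k + 1) 0 (s'.z a) ∧ Keep [f, a] s s') := by
  unfold oddStep
  refine (Tri.seq (tri_rew ha) (t' := 4 * k + 4) ?_).cost (by omega)
  rintro s1 ⟨h1, h2⟩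
  rw [Nat.add_zero] at h1
  have hf1 : s1.z f = at' xs (k * k) := by rw [h2.z (by simp [hfa]), hf]
  have hl := Tri.loop (d := d) (c := fun _ r => (r a).isSome)
    (p := .seq (op f .right) (.seq (op f .right) (op a .right))) k
    (fun i s' => s'.z f = at' xs (k * k + 2 * i) ∧ Len u i (k - i) (s'.z a) ∧
      Keep [f, a] s1 s') 3 ?_ ?_ ?_ (s := s1) ⟨hf1, by simpa using h1, Keep.refl _ _⟩
  · refine (Tri.seq hl (t' := 3) ?_).cost (by omega)
    rintro s2 ⟨g1, g2, g3⟩
    rw [Nat.sub_self] at g2
    refine Tri.seq (tri_right_at (by omega) g1) (t' := 2) ?_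
    rintro s3 ⟨g4, g5⟩
    have g6 : Len u k 0 (s3.z a) := g5.len (by simp [hfa.symm]) g2
    refine (tri_put g6).post ?_
    rintro s4 ⟨g7, g8⟩
    refine ⟨?_, g7, ?_⟩
    · rw [g8.z (by simp [hfa]), g4]
      congr 1
      ring
    · exact (h2.mono (by simp)).trans (g3.trans ((g5.mono (by simp)).trans (g8.mono (by simp))))
  · rintro i hi s' ⟨_, g2, _⟩
    rw [Store.reads, g2.peek_isSome]
    simpa using hi
  · rintro s' ⟨_, g2, _⟩
    rw [Store.reads, g2.peek_isSome]
    simp
  · rintro i hi s2 ⟨g1, g2, g3⟩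
    obtain ⟨j', hj'⟩ : ∃ j', k - i = j' + 1 := ⟨k - i - 1, by omega⟩
    rw [hj'] at g2
    have hx : k * k + 2 * i + 2 < xs.length := by omega
    refine Tri.seq (tri_right_at (by omega) g1) (t' := 2) ?_
    rintro s3 ⟨g4, g5⟩
    refine Tri.seq (tri_right_at (by omega) g4) (t' := 1) ?_
    rintro s4 ⟨g6, g7⟩
    have g8 : Len u i (j' + 1) (s4.z a) :=
      g7.len (by simp [hfa.symm]) (g5.len (by simp [hfa.symm]) g2)
    refine (tri_right g8).post ?_
    rintro s5 ⟨g9, g10⟩
    refine ⟨?_, ?_, ?_⟩
    · rw [g10.z (by simp [hfa]), g6]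
      congr 1
    · have e : k - (i + 1) = j' := by omega
      rw [e]
      exact g9
    · exact g3.trans ((g5.mono (by simp)).trans ((g7.mono (by simp)).trans (g10.mono (by simp))))

theorem tri_rootP {f a : F} (hfa : f ≠ a) {u : α} {s : Store M F α} {xs : List α} {m : ℕ}
    (hm : xs.length = m * m) (hf : s.z f = ⟨[], xs⟩) (ha : Len u 0 0 (s.z a)) :
    Tri d (rootP f a u) s (m * (4 * m + 6) + 1) (fun s' => s'.z f = ⟨xs.reverse, []⟩ ∧
      Len u m 0 (s'.z a) ∧ Keep [f, a] s s') := by
  have hl := Tri.loop (d := d) (c := fun _ r => (r f).isSome) (p := oddStep f a u) m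
    (fun k s' => s'.z f = at' xs (k * k) ∧ Len u k 0 (s'.z a) ∧ Keep [f, a] s s')
    (4 * m + 5) ?_ ?_ ?_ (s := s) ⟨by rw [hf, Nat.zero_mul, at'_zero], ha, Keep.refl _ _⟩
  · refine hl.mono (by ring_nf; omega) ?_
    rintro s' ⟨h1, h2, h3⟩
    refine ⟨?_, h2, h3⟩
    rw [h1, ← hm, at'_length]
  · rintro k hk s' ⟨g1, _, _⟩
    have : k * k < xs.length := by
      rw [hm]
      exact Nat.mul_self_lt_mul_self hk
    simp only [Store.reads, g1, at'_peek, List.getElem?_eq_getElem this]
    rfl
  · rintro s' ⟨g1, _, _⟩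
    simp only [Store.reads, g1, at'_peek]
    simp [hm]
  · rintro k hk s' ⟨g1, g2, g3⟩
    have hx : k * k + 2 * k + 1 ≤ xs.length := by
      rw [hm]
      calc k * k + 2 * k + 1 = (k + 1) * (k + 1) := by ring
        _ ≤ m * m := Nat.mul_self_le_mul_self hk
    refine (tri_oddStep hfa hx g1 g2).mono (by omega) ?_
    rintro s'' ⟨g4, g5, g6⟩
    exact ⟨g4, g5, g3.trans g6⟩

/-- Copy (with the map `g`) one symbol from `f` to `o`. -/
def copy1 (f o : F) (g : α → α) (e : α) : Prog M F α :=
  .seq (.prim fun m r => (m, some (o, .write (g ((r f).getD e))))) (.seq (op o .right)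
    (op f .right))

theorem tri_copy1 {f o : F} (hfo : f ≠ o) {g : α → α} {e x : α} {l r lo : List α}
    {s : Store M F α} (hf : s.z f = ⟨l, x :: r⟩) (ho : s.z o = ⟨lo, []⟩) :
    Tri d (copy1 f o g e) s 3 (fun s' => s'.z f = ⟨x :: l, r⟩ ∧ s'.z o = ⟨g x :: lo, []⟩ ∧
      Keep [f, o] s s') := by
  have h1 : Prog.Run d (.prim fun m r => (m, some (o, .write (g ((r f).getD e))))) s 1
      ⟨s.m, update s.z o ⟨lo, [g x]⟩⟩ := by
    apply Prog.Run.prim'
    simp only [Prog.appAct, Store.reads, hf, ho]
    rfl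
  refine Tri.runSeq h1 ?_ (t' := 2)
  refine Tri.seq (t' := 1) (tri_op (d := d) o .right _) ?_
  rintro s2 ⟨g1, g2⟩
  simp only [Function.update_self, Op.app] at g1
  refine (tri_op (d := d) f .right s2).post ?_
  rintro s3 ⟨g3, g4⟩
  have hf2 : s2.z f = ⟨l, x :: r⟩ := by
    rw [g2.z (by simp [hfo])]
    simp only [ne_eq, hfo, not_false_eq_true, Function.update_of_ne, hf]
  refine ⟨?_, ?_, ?_⟩
  · rw [g3, hf2]
    rfl
  · rw [g4.z (by simp [hfo.symm]), g1]
  · refine Keep.trans (s' := ⟨s.m, update s.z o ⟨lo, [g x]⟩⟩) ⟨rfl, (Frm.refl _ _).update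
      (by simp)⟩ ((g2.mono (by simp)).trans (g4.mono (by simp)))

/-- Copy as many symbols as the ruler `a` is long. -/
def copyRow (f a o : F) (g : α → α) (e : α) : Prog M F α :=
  .seq (op a .rew) (.loop (fun _ r => (r a).isSome) (.seq (copy1 f o g e) (op a .right)))

theorem tri_copyLoop {f a o : F} (hfa : f ≠ a) (hfo : f ≠ o) (hao : a ≠ o) {g : α → α} {e u : α}
    (row : List α) {l r lo : List α} {i : ℕ}
    {s : Store M F α} (hf : s.z f = ⟨l, row ++ r⟩) (ho : s.z o = ⟨lo, []⟩)
    (ha : Len u i row.length (s.z a)) :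
    Tri d (.loop (fun _ r => (r a).isSome) (.seq (copy1 f o g e) (op a .right))) s
      (row.length * 5 + 1) (fun s' => s'.z f = ⟨row.reverse ++ l, r⟩ ∧
      s'.z o = ⟨(row.map g).reverse ++ lo, []⟩ ∧ Len u (i + row.length) 0 (s'.z a) ∧
      Keep [f, a, o] s s') := by
  induction row generalizing l lo i s with
  | nil =>
    refine ⟨s, (Prog.Run.loopF ?_).mono (by simp), ?_, ?_, ha, Keep.refl _ _⟩
    · rw [Store.reads, ha.peek_isSome]
      simp
    · simpa using hf
    · simpa using ho
  | cons x row ih =>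
    rw [List.cons_append] at hf
    rw [List.length_cons] at ha
    obtain ⟨s1, p1, q1, q2, q3⟩ := tri_copy1 (d := d) (g := g) (e := e) hfo hf ho
    have ha1 : Len u i (row.length + 1) (s1.z a) := q3.len (by simp [hfa.symm, hao]) ha
    obtain ⟨s2, p2, q4, q5⟩ := tri_right (d := d) ha1
    have hf2 : s2.z f = ⟨x :: l, row ++ r⟩ := by rw [q5.z (by simp [hfa]), q1]
    have ho2 : s2.z o = ⟨g x :: lo, []⟩ := by rw [q5.z (by simp [hao.symm]), q2]
    obtain ⟨s3, p3, q6, q7, q8, q9⟩ := ih hf2 ho2 q4
    refine ⟨s3, (Prog.Run.loopT ?_ (p1.seq p2) p3).mono ?_, ?_, ?_, ?_, ?_⟩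
    · rw [Store.reads, ha.peek_isSome]
      simp
    · rw [List.length_cons]
      omega
    · rw [q6]
      simp
    · rw [q7]
      simp
    · rw [List.length_cons, show i + (row.length + 1) = i + 1 + row.length by omega]
      exact q8
    · exact (q3.mono (by simp)).trans ((q5.mono (by simp)).trans q9)

theorem tri_copyRow {f a o : F} (hfa : f ≠ a) (hfo : f ≠ o) (hao : a ≠ o) {g : α → α} {e u : α}
    (row : List α) {l r lo : List α}
    {s : Store M F α} (hf : s.z f = ⟨l, row ++ r⟩) (ho : s.z o = ⟨lo, []⟩)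
    (ha : Len u row.length 0 (s.z a)) :
    Tri d (copyRow f a o g e) s
      (row.length * 5 + 2) (fun s' => s'.z f = ⟨row.reverse ++ l, r⟩ ∧
      s'.z o = ⟨(row.map g).reverse ++ lo, []⟩ ∧ Len u row.length 0 (s'.z a) ∧
      Keep [f, a, o] s s') := by
  refine (Tri.seq (tri_rew ha) (t' := row.length * 5 + 1) ?_).cost (by omega)
  rintro s1 ⟨h1, h2⟩
  rw [Nat.add_zero] at h1
  refine (tri_copyLoop hfa hfo hao row (by rw [h2.z (by simp [hfa]), hf])
    (by rw [h2.z (by simp [hao.symm]), ho]) h1).post ?_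
  rintro s2 ⟨g1, g2, g3, g4⟩
  rw [Nat.zero_add] at g3
  exact ⟨g1, g2, g3, (h2.mono (by simp)).trans g4⟩

/-- Copy the rows, and insert separators. -/
def sepP (f a o : F) (g : α → α) (e h : α) : Prog M F α :=
  .loop (fun _ r => (r f).isSome) (.seq (copyRow f a o g e)
    (.ite (fun _ r => (r f).isSome) (put o h) nop))

/-- The rows, with separators. -/
def joinH (h : α) : List (List α) → List α
  | [] => []
  | [r] => r
  | r :: r' :: rs => r ++ h :: joinH h (r' :: rs)

theorem joinH_eq (h : α) (rows : List (List α)) : joinH h rows = [h].intercalate rows := by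
  induction rows with
  | nil => rfl
  | cons r rs ih =>
    cases rs with
    | nil => simp [joinH, List.intercalate]
    | cons r' rs =>
      rw [joinH, ih]
      simp [List.intercalate]

theorem tri_sepP {f a o : F} (hfa : f ≠ a) (hfo : f ≠ o) (hao : a ≠ o) {g : α → α} {e h u : α}
    {m : ℕ} (hm : 1 ≤ m) (rows : List (List α)) (hrows : ∀ r ∈ rows, r.length = m)
    {l lo : List α} {s : Store M F α} (hf : s.z f = ⟨l, rows.flatten⟩) (ho : s.z o = ⟨lo, []⟩)
    (ha : Len u m 0 (s.z a)) :
    Tri d (sepP f a o g e h) s (rows.length * (5 * m + 6) + 1)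
      (fun s' => s'.z o = ⟨(joinH h (rows.map (List.map g))).reverse ++ lo, []⟩ ∧
      Keep [f, a, o] s s') := by
  induction rows generalizing l lo s with
  | nil =>
    refine ⟨s, (Prog.Run.loopF ?_).mono (by simp), ?_, Keep.refl _ _⟩
    · rw [Store.reads, hf]
      simp [Zip.peek]
    · simpa [joinH] using ho
  | cons row rs ih =>
    have hrow : row.length = m := hrows row (by simp)
    rw [List.flatten_cons] at hf
    have hne : (s.reads f).isSome = true := by
      rw [Store.reads, hf]
      cases row with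
      | nil =>
        rw [List.length_nil] at hrow
        omega
      | cons x row => rfl
    obtain ⟨s1, p1, q1, q2, q3, q4⟩ := tri_copyRow (d := d) (g := g) (e := e) hfa hfo hao row hf ho
      (by rw [hrow]; exact ha)
    rw [hrow] at p1 q3
    cases rs with
    | nil =>
      have hlast : (s1.reads f).isSome = false := by
        rw [Store.reads, q1]
        simp [Zip.peek]
      have p2 : Prog.Run d (.ite (fun _ r => (r f).isSome) (put o h) nop) s1 2 s1 :=
        (Prog.Run.iteF (c := fun _ r => (r f).isSome) hlast (run_nop s1.m s1.z)).mono (by omega)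
      have p3 : Prog.Run d (sepP f a o g e h) s1 1 s1 := Prog.Run.loopF hlast
      refine ⟨s1, (Prog.Run.loopT hne (p1.seq p2) p3).mono ?_, ?_, q4⟩
      · simp only [List.length_cons, List.length_nil]
        omega
      · simpa [joinH] using q2
    | cons row' rs =>
      have hrow' : row'.length = m := hrows row' (by simp)
      have hlast : (s1.reads f).isSome = true := by
        rw [Store.reads, q1]
        cases row' with
        | nil =>
          rw [List.length_nil] at hrow'
          omega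
        | cons x row => rfl
      have p2 : Prog.Run d (.ite (fun _ r => (r f).isSome) (put o h) nop) s1 3
          ⟨s1.m, update s1.z o ⟨h :: ((row.map g).reverse ++ lo), []⟩⟩ :=
        (Prog.Run.iteT (c := fun _ r => (r f).isSome) hlast (run_put (m := s1.m) (z := s1.z)
          q2)).mono (by omega)
      set s2 : Store M F α := ⟨s1.m, update s1.z o ⟨h :: ((row.map g).reverse ++ lo), []⟩⟩
        with hs2
      have k2 : Keep [o] s1 s2 := ⟨rfl, (Frm.refl _ _).update (by simp)⟩
      obtain ⟨s3, p3, q5, q6⟩ := ih (fun r hr => hrows r (by simp at hr ⊢; tauto))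
        (s := s2) (l := row.reverse ++ l) (lo := h :: ((row.map g).reverse ++ lo))
        (by rw [k2.z (by simp [hfo]), q1])
        (by rw [hs2]; simp) (k2.len (by simp [hao]) q3)
      refine ⟨s3, (Prog.Run.loopT hne (p1.seq p2) p3).mono ?_, ?_, ?_⟩
      · simp only [List.length_cons]
        ring_nf
        omega
      · rw [q5]
        simp [joinH]
      · exact q4.trans ((k2.mono (by simp)).trans q6)

end Vale.Agent.P338.R2.H525
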