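import Vale.Agent.P338.R2.H525.PlainA
import Vale.Agent.P338.R2.H784.Alpha
import Vale.Agent.P338.R2.H898.Machine

/-!
P338: machines for the transposition of square matrices, with and without separators.
-/

namespace Vale.Agent.P338.R2.H525

open Vale.Agent.P338.R2.H898 Vale.Agent.P338.R2.H784
open Vale.Agent.P338.R2.H968 (CallMem CFile CallEnv Rep tapes cfs)
open Function (update)

set_option linter.unusedSectionVars false

theorem matWord_eq_joinH {r s : ℕ} (M : Fin r → Fin s → Bool) :
    matWord M = joinH Letter.hash (List.ofFn fun i => List.ofFn fun j => bitL (M i j)) := by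
  rw [joinH_eq]
  rfl

theorem filter_joinH (rows : List (List Letter)) (h : ∀ r ∈ rows, ∀ x ∈ r, x ≠ Letter.hash) :
    (joinH Letter.hash rows).filter (· ≠ Letter.hash) = rows.flatten := by
  induction rows with
  | nil => rfl
  | cons r rs ih =>
    have hr : r.filter (· ≠ Letter.hash) = r := by
      rw [List.filter_eq_self]
      intro x hx
      simpa using h r (by simp) x hx
    cases rs with
    | nil => simpa [joinH] using hr
    | cons r' rs =>
      have ih' := ih (fun q hq => h q (by simp at hq ⊢; tauto))
      rw [joinH, List.filter_append, hr, List.filter_cons, List.flatten_cons]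
      simp only [ne_eq, not_true_eq_false, decide_false, Bool.false_eq_true, if_false]
      rw [← ih']

theorem filter_matWord {m : ℕ} (M : Fin m → Fin m → Bool) :
    (matWord M).filter (· ≠ Letter.hash) = plainWord M := by
  rw [matWord_eq_joinH]
  refine filter_joinH _ ?_
  intro r hr x hx
  obtain ⟨i, rfl⟩ := (List.mem_ofFn' _ _).1 hr
  obtain ⟨j, rfl⟩ := (List.mem_ofFn' _ _).1 hx
  show bitL (M i j) ≠ _
  cases M i j <;> simp [bitL]

theorem length_plainWord {m : ℕ} (M : Fin m → Fin m → Bool) : (plainWord M).length = m * m := by
  unfold plainWord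
  rw [List.length_flatten, List.map_ofFn]
  have : (List.length ∘ fun i => List.ofFn fun j => bitL (M i j)) = fun _ => m := by
    funext i
    simp
  rw [this]
  simp

section output

variable {M F : Type} [DecidableEq F] {B : MTM}

open Classical in
/-- Copy the output of `B` without the separators. -/
noncomputable def dropP (B : MTM) (t o : F) : Prog M F (Sy B.Sym) :=
  .loop (fun _ r => decide (∃ a, ((r t).map (Sy.dec B.blank)).getD B.blank = B.letter a))
    (.seq (.ite (fun _ r => decide (((r t).map (Sy.dec B.blank)).getD B.blank = B.letter .hash)) nop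
      (.seq (.prim fun m r => (m, some (o, .write (.l
        (if ((r t).map (Sy.dec B.blank)).getD B.blank = B.letter .one then .one else .zero)))))
        (op o .right))) (op t .right))

theorem tri_dropP {t o : F} (hto : t ≠ o) (v : List Letter) {l r : List (Sy B.Sym)}
    {lo : List (Sy B.Sym)} {s : Store M F (Sy B.Sym)} (ht : s.z t = ⟨l, r⟩) (ho : s.z o = ⟨lo, []⟩)
    (hr : ∀ p : ℕ, ((r[p]?).map (Sy.dec B.blank)).getD B.blank = ((v[p]?).map B.letter).getD B.blank) :
    Tri (.a B.blank) (dropP B t o) s (v.length * 5 + 1) (fun s' =>
      s'.z o = ⟨((v.filter (· ≠ Letter.hash)).map Sy.l).reverse ++ lo, []⟩) := by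
  classical
  induction v generalizing l r lo s with
  | nil =>
    refine ⟨s, (Prog.Run.loopF ?_).mono (by simp), ?_⟩
    · have h0 := hr 0
      have : (s.reads t) = r[0]? := by
        rw [Store.reads, ht]
        cases r <;> rfl
      simp only [this, h0]
      simp only [List.getElem?_nil, Option.map_none, Option.getD_none, decide_eq_false_iff_not,
        not_exists]
      exact fun a h => B.letter_ne_blank a h.symm
    · simpa using ho
  | cons a v ih =>
    obtain ⟨b, r', rfl⟩ : ∃ b r', r = b :: r' := by
      cases r with
      | nil =>
        have := hr 0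
        simp only [List.getElem?_nil, Option.map_none, Option.getD_none, List.getElem?_cons_zero,
          Option.map_some, Option.getD_some] at this
        exact absurd this.symm (B.letter_ne_blank _)
      | cons b r' => exact ⟨b, r', rfl⟩
    have hb : Sy.dec B.blank b = B.letter a := by simpa using hr 0
    have hrd : ∀ s' : Store M F (Sy B.Sym), s'.z t = ⟨l, b :: r'⟩ →
        ((s'.reads t).map (Sy.dec B.blank)).getD B.blank = B.letter a := by
      intro s' h
      rw [Store.reads, h]
      simpa [Zip.peek] using hb
    have hc : (fun (_ : M) (r : F → Option (Sy B.Sym)) =>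
        decide (∃ a, ((r t).map (Sy.dec B.blank)).getD B.blank = B.letter a)) s.m s.reads = true := by
      simp only [hrd s ht, decide_eq_true_eq]
      exact ⟨a, rfl⟩
    -- the body
    have hbody : Tri (.a B.blank) (.seq (.ite (fun (_ : M) (r : F → Option (Sy B.Sym)) =>
        decide (((r t).map (Sy.dec B.blank)).getD B.blank = B.letter .hash)) nop
      (.seq (.prim fun m r => (m, some (o, .write (.l
        (if ((r t).map (Sy.dec B.blank)).getD B.blank = B.letter .one then .one else .zero)))))
        (op o .right))) (op t .right)) s 4 (fun s' => s'.z t = ⟨b :: l, r'⟩ ∧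
        s'.z o = ⟨(([a].filter (· ≠ Letter.hash)).map Sy.l).reverse ++ lo, []⟩) := by
      refine (Tri.seq (t := 3) (t' := 1) (Q := fun s' => s'.z t = ⟨l, b :: r'⟩ ∧
        s'.z o = ⟨(([a].filter (· ≠ Letter.hash)).map Sy.l).reverse ++ lo, []⟩)
        (Tri.ite (t := 2) ?_ ?_) ?_).cost (by omega)
      · intro h
        simp only [hrd s ht, decide_eq_true_eq] at h
        have ha : a = .hash := B.letter_inj h
        subst ha
        exact ⟨s, (run_nop s.m s.z).mono (by omega), ht, by simpa using ho⟩
      · intro h
        simp only [hrd s ht, decide_eq_false_iff_not] at h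
        have ha : a ≠ .hash := fun h' => h (by rw [h'])
        have e1 : (if B.letter a = B.letter .one then Letter.one else Letter.zero) = a := by
          cases a with
          | zero =>
            rw [if_neg]
            intro h'
            exact absurd (B.letter_inj h') (by decide)
          | one => simp
          | hash => exact absurd rfl ha
        have h1 : Prog.Run (.a B.blank) (.prim fun m (r : F → Option (Sy B.Sym)) =>
            (m, some (o, .write (.l
            (if ((r t).map (Sy.dec B.blank)).getD B.blank = B.letter .one then .one else .zero))))) s 1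
            ⟨s.m, update s.z o ⟨lo, [.l a]⟩⟩ := by
          apply Prog.Run.prim'
          simp only [Prog.appAct, hrd s ht, e1, ho]
          rfl
        refine Tri.runSeq h1 ((tri_op (d := Sy.a B.blank) o .right _).post ?_)
        rintro s2 ⟨g1, g2⟩
        simp only [Function.update_self, Op.app] at g1
        refine ⟨?_, ?_⟩
        · rw [g2.z (by simp [hto])]
          simp only [ne_eq, hto, not_false_eq_true, Function.update_of_ne, ht]
        · rw [g1]
          simp [ha]
      · rintro s2 ⟨g1, g2⟩
        refine (tri_op (d := Sy.a B.blank) t .right s2).post ?_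
        rintro s3 ⟨g3, g4⟩
        refine ⟨by rw [g3, g1]; rfl, by rw [g4.z (by simp [hto.symm]), g2]⟩
    obtain ⟨s1, p1, q1, q2⟩ := hbody
    obtain ⟨s2, p2, q3⟩ := ih q1 q2 (fun p => by simpa using hr (p + 1))
    refine ⟨s2, (Prog.Run.loopT hc p1 p2).mono ?_, ?_⟩
    · rw [List.length_cons]
      omega
    · show s2.z o = _
      rw [q3]
      by_cases ha : a = .hash
      · simp [ha]
      · simp [ha]

end output

end Vale.Agent.P338.R2.H525
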