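import Vale.Agent.P338.R2.H525.PlainB
import Vale.Agent.P338.R2.H207.Parse
import Vale.Agent.P338.R2.H207.Bridge

/-!
P338: transposing square matrices without separators is not harder than with separators.
-/

namespace Vale.Agent.P338.R2.H525

open Vale.Agent.P338.R2.H898 Vale.Agent.P338.R2.H784
open Vale.Agent.P338.R2.H968 (CallMem CFile CallEnv Rep tapes cfs)
open Function (update)

set_option linter.unusedSectionVars false

/-- The symbol of `B` for a letter. -/
def toB (B : MTM) : Sy B.Sym → Sy B.Sym
  | .l x => .a (B.letter x)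
  | y => y

theorem extend_id {ι γ : Type} (g e : ι → γ) : Function.extend id g e = g := by
  funext i
  exact Function.injective_id.extend_apply g e i

instance finiteCFile : Finite CFile :=
  Finite.of_injective (β := Fin 4) (fun | .opX => 0 | .opY => 1 | .clk => 2 | .res => 3)
    (by intro a b h; cases a <;> cases b <;> simp_all)

theorem map_joinH {α β : Type} (φ : α → β) (h : α) (rows : List (List α)) :
    (joinH h rows).map φ = joinH (φ h) (rows.map (List.map φ)) := by
  induction rows with
  | nil => rfl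
  | cons r rs ih =>
    cases rs with
    | nil => rfl
    | cons r' rs =>
      rw [joinH, List.map_append, List.map_cons, ih]
      rfl

theorem length_matWord_le {m : ℕ} (hm : 1 ≤ m) (N : Fin m → Fin m → Bool) :
    (matWord N).length ≤ 2 * (m * m) := by
  have := H207.word_length (fun x : Letter => x) hm N
  rw [List.length_map] at this
  have h1 : m * (m + 1) = m * m + m := by ring
  have h2 : m ≤ m * m := Nat.le_mul_of_pos_left m hm
  omega

/-- The machine for plain words. -/
theorem exists_plain (B : MTM) (hB : TransposesSquares B) : ∃ B' : MTM, TransposesPlain B' ∧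
    ∃ C : ℕ, ∀ m : ℕ, 1 ≤ m → ∀ N : Fin m → Fin m → Bool,
      B'.time (plainWord N) ≤ C * (B.time (matWord N) + m * m) := by
  classical
  have := B.finSym
  have := B.finTape
  have : Fintype (B.Tape ⊕ CFile) := Fintype.ofFinite _
  let E := env B (F := B.Tape ⊕ CFile) id Function.injective_id
  let pin : B.Tape ⊕ CFile := .inr .opX
  let rul : B.Tape ⊕ CFile := .inr .opY
  let pout : B.Tape ⊕ CFile := .inr .res
  let tin : B.Tape ⊕ CFile := .inl B.inp
  let tout : B.Tape ⊕ CFile := .inl B.out
  let m0 : CallMem B := CallEnv.mem0 B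
  let prog : Prog (CallMem B) (B.Tape ⊕ CFile) (Sy B.Sym) :=
    .seq (op pin .rew) (.seq (rootP pin rul .u) (.seq (op pin .rew)
    (.seq (sepP pin rul tin (toB B) (.l .zero) (.a (B.letter .hash))) (.seq (op tin .rew)
    (.seq E.simLoop (.seq (op tout .rew) (dropP B tout pout)))))))
  obtain ⟨B', hB'⟩ := Comp.machine (M := CallMem B) (F := B.Tape ⊕ CFile) (α := Sy B.Sym)
    (.a B.blank) .l Sy.dl (fun _ => rfl) m0 pin pout prog
  have key : ∀ m : ℕ, 1 ≤ m → ∀ N : Fin m → Fin m → Bool, ∃ s' : Store (CallMem B)
      (B.Tape ⊕ CFile) (Sy B.Sym), Prog.Run (.a B.blank) prog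
      ⟨m0, fun f => if f = pin then ⟨((plainWord N).map Sy.l).reverse, []⟩ else ⟨[], []⟩⟩
      ((2 * (tapes B).length + 50) * (B.time (matWord N) + m * m)) s' ∧
      (s'.z pout).full = (plainWord fun j i => N i j).map Sy.l := by
    intro m hm N
    set s0 : Store (CallMem B) (B.Tape ⊕ CFile) (Sy B.Sym) :=
      ⟨m0, fun f => if f = pin then ⟨((plainWord N).map Sy.l).reverse, []⟩ else ⟨[], []⟩⟩
      with hs0
    set xs := (plainWord N).map (Sy.l (S := B.Sym)) with hxs
    have hlen : xs.length = m * m := by rw [hxs, List.length_map, length_plainWord]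
    -- the side length
    obtain ⟨s1, p1, q1, k1⟩ := tri_op (d := Sy.a B.blank) pin .rew s0
    have q1' : s1.z pin = ⟨[], xs⟩ := by
      rw [q1, hs0]
      simp [Op.app]
    have z0 : ∀ f, f ≠ pin → s0.z f = ⟨[], []⟩ := by
      intro f hf
      rw [hs0]
      simp only
      rw [if_neg hf]
    obtain ⟨s2, p2, q2, r2, k2⟩ := tri_rootP (d := Sy.a B.blank) (f := pin) (a := rul)
      (u := Sy.u) (by simp [pin, rul]) hlen q1' (by
        rw [k1.z (by simp [pin, rul]), z0 _ (by simp [pin, rul])]
        rfl)
    obtain ⟨s3, p3, q3, k3⟩ := tri_op (d := Sy.a B.blank) pin .rew s2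
    have q3' : s3.z pin = ⟨[], xs⟩ := by
      rw [q3, q2]
      simp [Op.app]
    -- the rows
    set rows : List (List (Sy B.Sym)) := (List.ofFn fun i => List.ofFn fun j =>
      Sy.l (bitL (N i j))) with hrows
    have hflat : rows.flatten = xs := by
      rw [hxs, plainWord, List.map_flatten, hrows, List.map_ofFn]
      congr 2
      funext i
      simp [Function.comp_def, List.map_ofFn]
    have hrl : rows.length = m := by simp [hrows]
    have hrm : ∀ r ∈ rows, r.length = m := by
      intro r hr
      obtain ⟨i, rfl⟩ := (List.mem_ofFn' _ _).1 hr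
      simp
    have hlenr : Len Sy.u m 0 (s3.z rul) := k3.len (by simp [pin, rul]) r2
    have z3 : ∀ f, f ≠ pin → f ≠ rul → s3.z f = ⟨[], []⟩ := by
      intro f h1 h2
      rw [k3.z (by simp [h1]), k2.z (by simp [h1, h2]), k1.z (by simp [h1]), z0 f h1]
    obtain ⟨s4, p4, q4, k4⟩ := tri_sepP (d := Sy.a B.blank) (f := pin) (a := rul) (o := tin)
      (g := toB B) (e := .l .zero) (h := .a (B.letter .hash)) (by simp [pin, rul])
      (by simp [pin, tin]) (by simp [rul, tin]) hm rows hrm (l := []) (lo := []) (s := s3)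
      (by rw [q3', hflat]) (z3 _ (by simp [pin, tin]) (by simp [rul, tin])) hlenr
    obtain ⟨s5, p5, q5, k5⟩ := tri_op (d := Sy.a B.blank) tin .rew s4
    have hword : joinH (Sy.a (B.letter .hash)) (rows.map (List.map (toB B))) =
        (matWord N).map fun a => Sy.a (B.letter a) := by
      rw [matWord_eq_joinH, map_joinH, hrows]
      congr 1
      simp only [List.map_ofFn, Function.comp_def, toB]
    set W := (matWord N).map fun a => (Sy.a (B.letter a) : Sy B.Sym) with hW
    have q5' : s5.z tin = ⟨[], W⟩ := by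
      rw [q5, q4, hword]
      simp [Op.app]
    have z5 : ∀ f, f ≠ pin → f ≠ rul → f ≠ tin → s5.z f = ⟨[], []⟩ := by
      intro f h1 h2 h3
      rw [k5.z (by simp [h3]), k4.z (by simp [h1, h2, h3]), z3 f h1 h2]
    have m5 : s5.m = m0 := by
      rw [k5.1, k4.1, k3.1, k2.1, k1.1]
    -- the simulation
    obtain ⟨hhalt, hres⟩ := hB m hm N
    set w := matWord N with hw
    set T := B.time w with hT
    have hTh : B.Halted (B.next^[T] (B.init w)) :=
      Nat.sInf_mem (s := {t | B.Halted (B.conf w t)}) hhalt
    have hTn : ∀ j < T, ¬ B.Halted (B.next^[j] (B.init w)) := fun j hj =>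
      Nat.notMem_of_lt_sInf (s := {t | B.Halted (B.conf w t)}) hj
    have hrep : ∀ i, Rep B E.dec ((B.init w).tape i) ((B.init w).head i) (s5.z (.inl i)) := by
      intro i
      by_cases h : i = B.inp
      · subst h
        rw [show s5.z (.inl B.inp) = ⟨[], W⟩ from q5']
        refine ⟨by simp [MTM.init], fun p => ?_⟩
        simp only [Zip.full, List.reverse_nil, List.nil_append, MTM.init, if_true, hW,
          List.getElem?_map, Option.map_map]
        congr 2
      · rw [z5 (.inl i) (by simp [pin]) (by simp [rul]) (by simpa [tin] using h)]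
        refine ⟨rfl, fun p => ?_⟩
        simp [Zip.full, MTM.init, h]
    obtain ⟨ta', ac', hr, hsim⟩ := E.run_simLoop (s5.z (.inr .opX)) (s5.z (.inr .opY))
      (s5.z (.inr .res)) s5.z s5.m T (B.init w) (fun i => s5.z (.inl i)) []
      (fun _ => (B.blank, .stay)) hrep hTn hTh
    have e5 : E.St ⟨(B.init w).state, fun _ => (B.blank, .stay)⟩ (fun i => s5.z (.inl i))
        (cfs (s5.z (.inr .opX)) (s5.z (.inr .opY)) ⟨[], []⟩ (s5.z (.inr .res))) s5.z s5.m = s5 := by
      rcases s5 with ⟨mm, zz⟩
      simp only [CallEnv.St, Store.mk.injEq]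
      refine ⟨?_, ?_⟩
      · simp only at m5
        rw [m5]
        rfl
      · change Function.extend id _ _ = _
        rw [extend_id]
        funext f
        rcases f with i | j
        · rfl
        · cases j
          · rfl
          · rfl
          · exact (z5 (.inr .clk) (by simp [pin]) (by simp [rul]) (by simp [tin])).symm
          · rfl
    rw [e5] at hsim
    set s6 := E.St ⟨(B.next^[T] (B.init w)).state, ac'⟩ ta'
      (cfs (s5.z (.inr .opX)) (s5.z (.inr .opY)) ⟨List.replicate T E.mark ++ [], []⟩
        (s5.z (.inr .res))) s5.z s5.m with hs6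
    have z6t : s6.z tout = ta' B.out := by
      rw [hs6]
      change Function.extend id _ _ _ = _
      rw [extend_id]
      rfl
    have z6o : s6.z pout = ⟨[], []⟩ := by
      rw [hs6]
      change Function.extend id _ _ _ = _
      rw [extend_id]
      exact z5 (.inr .res) (by simp [pin]) (by simp [rul]) (by simp [tin])
    -- the output
    obtain ⟨s7, p7, q7, k7⟩ := tri_op (d := Sy.a B.blank) tout .rew s6
    have q7' : s7.z tout = ⟨[], (ta' B.out).full⟩ := by
      rw [q7, z6t]
      rfl
    obtain ⟨s8, p8, q8⟩ := tri_dropP (B := B) (t := tout) (o := pout) (by simp [tout, pout])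
      (matWord fun j i => N i j) q7' (lo := []) (by rw [k7.z (by simp [tout, pout]), z6o])
      (fun p => by
        have h1 := (hr B.out).2 p
        have h2 := hres p
        rw [← h2]
        exact h1)
    refine ⟨s8, (p1.seq (p2.seq (p3.seq (p4.seq (p5.seq (hsim.seq (p7.seq p8))))))).mono ?_, ?_⟩
    · have e1 := length_matWord_le hm (fun j i => N i j)
      rw [hrl]
      have e2 : 1 ≤ m * m := Nat.mul_pos hm hm
      have e3 : m ≤ m * m := Nat.le_mul_of_pos_left m hm
      set L := (matWord fun j i => N i j).length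
      set k := (tapes B).length
      have e4 : m * (4 * m + 6) = 4 * (m * m) + 6 * m := by ring
      have e5 : m * (5 * m + 6) = 5 * (m * m) + 6 * m := by ring
      rw [e4, e5]
      have e6 : (2 * k + 50) * (T + m * m) = T * (k * 2 + 5) + 45 * T + 2 * (k * (m * m)) +
          50 * (m * m) := by ring
      rw [e6]
      have e7 : 0 ≤ k * (m * m) := Nat.zero_le _
      omega
    · rw [Zip.full, q8, filter_matWord]
      simp
  refine ⟨B', fun m hm N => ?_, 8 * (2 * (tapes B).length + 50) + 30, fun m hm N => ?_⟩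
  · obtain ⟨s', h1, h2⟩ := key m hm N
    exact (hB' _ _ _ s' h1 h2).1
  · obtain ⟨s', h1, h2⟩ := key m hm N
    refine (hB' _ _ _ s' h1 h2).2.trans ?_
    rw [length_plainWord, length_plainWord]
    have e2 : 1 ≤ m * m := Nat.mul_pos hm hm
    set K := (2 * (tapes B).length + 50)
    nlinarith [Nat.zero_le (B.time (matWord N))]

/-- Transposing square matrices without separators is not harder than with separators. -/
theorem squareHard_of_plainHard (h : PlainHard) : SquareHard := by
  intro B hB
  obtain ⟨B', hB', C, hC⟩ := exists_plain B hB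
  obtain ⟨c, hc, N, hN⟩ := h B' hB'
  have hC1 : ∀ m : ℕ, 1 ≤ m → (plainTime B' m : ℝ) ≤ C * (transTime B m m + m * m) := by
    intro m hm
    obtain ⟨M, hM⟩ : ∃ M : Fin m → Fin m → Bool, plainTime B' m = B'.time (plainWord M) := by
      have hfin : {t | ∃ M : Fin m → Fin m → Bool, t = B'.time (plainWord M)}.Finite := by
        refine (Set.finite_range (fun M : Fin m → Fin m → Bool =>
          B'.time (plainWord M))).subset ?_
        rintro t ⟨M, rfl⟩
        exact ⟨M, rfl⟩
      have hmem : sSup {t | ∃ M : Fin m → Fin m → Bool, t = B'.time (plainWord M)} ∈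
          {t | ∃ M : Fin m → Fin m → Bool, t = B'.time (plainWord M)} :=
        Nat.sSup_mem ⟨_, fun _ _ => false, rfl⟩ hfin.bddAbove
      exact hmem
    have h1 := hC m hm M
    have h2 : B.time (matWord M) ≤ transTime B m m :=
      le_csSup (H207.finite_transTimes B m m).bddAbove ⟨M, rfl⟩
    rw [hM]
    have h3 : B'.time (plainWord M) ≤ C * (transTime B m m + m * m) :=
      h1.trans (Nat.mul_le_mul_left _ (by omega))
    exact_mod_cast h3
  -- absorb the quadratic term
  have hCpos : (0 : ℝ) < (C : ℝ) + 1 := by positivity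
  obtain ⟨N₂, hN₂⟩ : ∃ N₂ : ℕ, ∀ m : ℕ, N₂ ≤ m → 2 * (C + 1) / c ≤ Real.log m := by
    have := (Real.tendsto_log_atTop.comp tendsto_natCast_atTop_atTop).eventually_ge_atTop
      (2 * ((C : ℝ) + 1) / c)
    obtain ⟨N₂, h⟩ := Filter.eventually_atTop.1 this
    exact ⟨N₂, h⟩
  refine ⟨c / (2 * (C + 1)), by positivity, max N (max N₂ 1), fun m hm => ?_⟩
  have hm1 : 1 ≤ m := (le_max_right _ _).trans ((le_max_right _ _).trans hm)
  have hm2 : N₂ ≤ m := (le_max_left _ _).trans ((le_max_right _ _).trans hm)
  have h1 := hN m ((le_max_left _ _).trans hm)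
  have h2 := hC1 m hm1
  have h3 := hN₂ m hm2
  have hlog : 0 ≤ Real.log m := Real.log_nonneg (by exact_mod_cast hm1)
  have hT : (0 : ℝ) ≤ transTime B m m := Nat.cast_nonneg _
  rw [div_le_iff₀ hc] at h3
  have h4 : (C : ℝ) * (m * m) ≤ c * (m ^ 2 * Real.log m) / 2 := by
    have hmm : (0 : ℝ) ≤ (m : ℝ) * m := by positivity
    nlinarith
  have h5 : c * (m ^ 2 * Real.log m) / 2 ≤ (C + 1) * transTime B m m := by
    nlinarith
  rw [div_mul_eq_mul_div, div_le_iff₀ (by positivity)]
  linarith

end Vale.Agent.P338.R2.H525
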