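import Vale.Agent.P338.R2.H525.PlainC

/-!
P338: the little-o form for matrices without separators.
-/

open Filter Asymptotics

namespace Vale.Agent.P338.R2.H525

open Vale.Agent.P338.R2.H898

/-- The worst-case form of `exists_plain`. -/
theorem exists_plainTime (B : MTM) (hB : TransposesSquares B) : ∃ B' : MTM, TransposesPlain B' ∧
    ∃ C : ℕ, ∀ m : ℕ, 1 ≤ m → plainTime B' m ≤ C * (transTime B m m + m * m) := by
  obtain ⟨B', hB', C, hC⟩ := exists_plain B hB
  refine ⟨B', hB', C, fun m hm => ?_⟩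
  have hfin : {t | ∃ M : Fin m → Fin m → Bool, t = B'.time (plainWord M)}.Finite := by
    refine (Set.finite_range (fun M : Fin m → Fin m → Bool =>
      B'.time (plainWord M))).subset ?_
    rintro t ⟨M, rfl⟩
    exact ⟨M, rfl⟩
  obtain ⟨M, hM⟩ : ∃ M : Fin m → Fin m → Bool, plainTime B' m = B'.time (plainWord M) := by
    have hmem : sSup {t | ∃ M : Fin m → Fin m → Bool, t = B'.time (plainWord M)} ∈
        {t | ∃ M : Fin m → Fin m → Bool, t = B'.time (plainWord M)} :=
      Nat.sSup_mem ⟨_, fun _ _ => false, rfl⟩ hfin.bddAbove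
    exact hmem
  have h1 := hC m hm M
  have h2 : B.time (matWord M) ≤ transTime B m m :=
    le_csSup (H207.finite_transTimes B m m).bddAbove ⟨M, rfl⟩
  rw [hM]
  exact h1.trans (Nat.mul_le_mul_left _ (by omega))

theorem plain_littleO {B : MTM} (hB : TransposesSquares B)
    (h : (fun m : ℕ => (transTime B m m : ℝ)) =o[atTop] fun m : ℕ => (m : ℝ) ^ 2 * Real.log m) :
    ∃ B' : MTM, TransposesPlain B' ∧
      (fun m : ℕ => (plainTime B' m : ℝ)) =o[atTop] fun m : ℕ => (m : ℝ) ^ 2 * Real.log m := by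
  obtain ⟨B', hB', C, hC⟩ := exists_plainTime B hB
  refine ⟨B', hB', ?_⟩
  have h1 : (fun m : ℕ => (m : ℝ) ^ 2) =o[atTop] fun m : ℕ => (m : ℝ) ^ 2 * Real.log m := by
    rw [isLittleO_iff]
    intro ε hε
    have h2 := (Real.tendsto_log_atTop.comp tendsto_natCast_atTop_atTop).eventually_ge_atTop
      (1 / ε)
    filter_upwards [h2] with m hm
    have hm' : 1 / ε ≤ Real.log m := hm
    rw [div_le_iff₀ hε] at hm'
    have hlog : 0 ≤ Real.log m := by
      by_contra hneg
      push Not at hneg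
      nlinarith
    rw [Real.norm_of_nonneg (by positivity), Real.norm_of_nonneg (by positivity)]
    nlinarith [sq_nonneg (m : ℝ)]
  have h3 : (fun m : ℕ => (C : ℝ) * ((transTime B m m : ℝ) + (m : ℝ) ^ 2)) =o[atTop]
      fun m : ℕ => (m : ℝ) ^ 2 * Real.log m := (h.add h1).const_mul_left _
  refine IsBigO.trans_isLittleO ?_ h3
  refine IsBigO.of_bound 1 ?_
  filter_upwards [eventually_ge_atTop 1] with m hm
  have h4 : (plainTime B' m : ℝ) ≤ C * ((transTime B m m : ℝ) + m * m) := by
    exact_mod_cast hC m hm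
  rw [Real.norm_of_nonneg (Nat.cast_nonneg _), Real.norm_of_nonneg (by positivity), one_mul]
  calc (plainTime B' m : ℝ) ≤ C * ((transTime B m m : ℝ) + m * m) := h4
    _ = C * ((transTime B m m : ℝ) + (m : ℝ) ^ 2) := by ring

end Vale.Agent.P338.R2.H525
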