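import Vale.Agent.P338.R2.H525.Spec
import Vale.Agent.P338.R2.H525.Lists
import Vale.Agent.P338.R2.H806.Pass

namespace Vale.Agent.P338.R2.H525

open H806 H806.LP H898

/-- The files of the post pass: input, output, rulers of lengths `K, P, P, G, L, τ, 2 P, L, s + 1`. -/
inductive PF
  | I | O | K | X | Y | G | L | T | E | S | s1
  deriving DecidableEq

namespace Post

variable {α : Type}

/-- skip one slot -/
def skipW : LP PF α := rep 64 (loop .L skip)

/-- process one slot -/
def slot : LP PF α :=
  seq (rep 40 (loop .L skip)) (seq (forCo .S skip) (seq (forCo .E (loop .T skip))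
    (seq (loop .L copy) (seq (rep 18 (loop .L skip)) (seq (forReg .S skip)
      (forReg .E (loop .T skip)))))))

def updX : LP PF α := seq (forReg .X (rep 2 (inc .E))) (inc .E)
def updY : LP PF α := seq (forReg .Y (rep 2 (inc .E))) (inc .E)

def group : LP PF α := seq (loop .X (seq slot updX)) (loop .X skipW)

def row : LP PF α := seq (loop .G group) (seq skipW updY)

/-- skip `P R` slots -/
def skipRows : LP PF α := loop .Y (loop .G (rep 2 (loop .X skipW)))

def block : LP PF α := seq skipRows (seq (loop .Y row) (rep 2 skipRows))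

def prog : LP PF α :=
  seq (loop .s1 (inc .S)) (seq (seq skipW (loop .K block)) (loop .S nop))

section ev

variable {m : PF → ℕ} {w : List α} {e : α}

theorem ev_loopL_skip (v : PF → ℕ) (hL : v .L = 0) (p : ℕ) :
    Ev m w e (loop .L skip) v p v (m .L) [] :=
  (ev_loop_skip0 hL 1 (fun _ _ => ev_skip _ _) p).congr rfl (by simp) rfl

theorem ev_skipW (v : PF → ℕ) (hL : v .L = 0) (p : ℕ) :
    Ev m w e skipW v p v (64 * m .L) [] :=
  ev_rep_skip (fun p => ev_loopL_skip v hL p) 64 p

theorem ev_loopT_skip (v : PF → ℕ) (hT : v .T = 0) (p : ℕ) :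
    Ev m w e (loop .T skip) v p v (m .T) [] :=
  (ev_loop_skip0 hT 1 (fun _ _ => ev_skip _ _) p).congr rfl (by simp) rfl

/-- offset of the word in its slot -/
def off (m : PF → ℕ) (σ ε : ℕ) : ℕ := 40 * m .L + (m .L - σ) + (m .E - ε) * m .T

theorem ev_slot (v : PF → ℕ) (hL : v .L = 0) (hT : v .T = 0) (hS : v .S ≤ m .S) (hE : v .E ≤ m .E)
    (hSL : m .S = m .L) (hET : m .E * m .T = 4 * m .L) (p : ℕ) :
    Ev m w e slot v p v (64 * m .L) (seg w e (p + off m (v .S) (v .E)) (m .L)) := by
  have h1 : Ev m w e (rep 40 (loop .L skip)) v p v (40 * m .L) [] :=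
    ev_rep_skip (fun p => ev_loopL_skip v hL p) 40 p
  have h2 := ev_forCo_skip (m := m) (w := w) (e := e) (r := PF.S) (v := v) 1
    (fun p => ev_skip _ _) (p + 40 * m .L)
  have h3 := ev_forCo_skip (m := m) (w := w) (e := e) (r := PF.E) (v := v) (m .T)
    (fun p => ev_loopT_skip v hT p) (p + 40 * m .L + (m .S - v .S) * 1)
  have h4 := ev_loop_copy0 (m := m) (w := w) (e := e) (r := PF.L) (v := v) hL 1
    (fun _ _ => ev_copy' _ _) (p + 40 * m .L + (m .S - v .S) * 1 + (m .E - v .E) * m .T)
  have h5 : ∀ p, Ev m w e (rep 18 (loop .L skip)) v p v (18 * m .L) [] :=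
    ev_rep_skip (fun p => ev_loopL_skip v hL p) 18
  have h6 := fun p => ev_forReg_skip (m := m) (w := w) (e := e) (r := PF.S) (v := v) 1
    (fun p => ev_skip _ _) p
  have h7 := fun p => ev_forReg_skip (m := m) (w := w) (e := e) (r := PF.E) (v := v) (m .T)
    (fun p => ev_loopT_skip v hT p) p
  refine (h1.seq (h2.seq (h3.seq (h4.seq ((h5 _).seq ((h6 _).seq (h7 _))))))).congr rfl ?_ ?_
  · have e1 : (m .E - v .E) * m .T + v .E * m .T = 4 * m .L := by
      rw [← hET, ← Nat.add_mul, Nat.sub_add_cancel hE]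
    omega
  · simp only [List.nil_append, List.append_nil, off, hSL, Nat.mul_one]
    congr 1
    omega

theorem ev_updX (v : PF → ℕ) (hm : 0 < m .E) (hE : v .E < m .E) (p : ℕ) :
    Ev m w e updX v p (Function.update v .E ((v .E + (2 * v .X + 1)) % m .E)) 0 [] := by
  have h1 := ev_forReg_inc (m := m) (w := w) (e := e) (q := PF.X) (r := PF.E) hm 2 v hE p
  have h2 := ev_inc (m := m) (w := w) (e := e) PF.E
    (Function.update v .E ((v .E + v .X * 2) % m .E)) (p + 0)
  refine (h1.seq h2).congr ?_ rfl rfl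
  rw [Function.update_idem, Function.update_self, Nat.mod_add_mod]
  congr 2
  ring

theorem ev_updY (v : PF → ℕ) (hm : 0 < m .E) (hE : v .E < m .E) (p : ℕ) :
    Ev m w e updY v p (Function.update v .E ((v .E + (2 * v .Y + 1)) % m .E)) 0 [] := by
  have h1 := ev_forReg_inc (m := m) (w := w) (e := e) (q := PF.Y) (r := PF.E) hm 2 v hE p
  have h2 := ev_inc (m := m) (w := w) (e := e) PF.E
    (Function.update v .E ((v .E + v .Y * 2) % m .E)) (p + 0)
  refine (h1.seq h2).congr ?_ rfl rfl
  rw [Function.update_idem, Function.update_self, Nat.mod_add_mod]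
  congr 2
  ring

/-- the data part of a group -/
theorem ev_groupX (v : PF → ℕ) (hL : v .L = 0) (hT : v .T = 0) (hX : v .X = 0)
    (hS : v .S ≤ m .S) (hE : v .E < m .E)
    (hSL : m .S = m .L) (hET : m .E * m .T = 4 * m .L) (hXX : m .E ∣ m .X ^ 2) (p : ℕ) :
    Ev m w e (loop .X (seq slot updX)) v p v (m .X * (64 * m .L))
      ((List.range (m .X)).flatMap fun x =>
        seg w e (p + x * (64 * m .L) + off m (v .S) ((v .E + x ^ 2) % m .E)) (m .L)) := by
  have hm : 0 < m .E := by omega
  refine ev_loop (fun i => Function.update v .E ((v .E + i ^ 2) % m .E)) (64 * m .L) _ ?_ ?_ ?_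
  · simp only [ne_eq, OfNat.ofNat_ne_zero, not_false_eq_true, zero_pow, Nat.add_zero]
    rw [Nat.mod_eq_of_lt hE, Function.update_eq_self, ← hX, Function.update_eq_self]
  · obtain ⟨c, hc⟩ := hXX
    rw [hc, Nat.add_mul_mod_self_left, Nat.mod_eq_of_lt hE, Function.update_eq_self, ← hX,
      Function.update_eq_self]
  · intro x _
    set v' := Function.update (Function.update v .E ((v .E + x ^ 2) % m .E)) .X x with hv'
    have e1 : v' .L = 0 := by simp [hv', hL]
    have e2 : v' .T = 0 := by simp [hv', hT]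
    have e3 : v' .S = v .S := by simp [hv']
    have e4 : v' .E = (v .E + x ^ 2) % m .E := by simp [hv']
    have e5 : v' .X = x := by simp [hv']
    have h1 := ev_slot (m := m) (w := w) (e := e) v' e1 e2 (by rw [e3]; exact hS)
      (by rw [e4]; exact (Nat.mod_lt _ hm).le) hSL hET (p + x * (64 * m .L))
    have h2 := ev_updX (m := m) (w := w) (e := e) v' hm (by rw [e4]; exact Nat.mod_lt _ hm)
      (p + x * (64 * m .L) + 64 * m .L)
    refine (h1.seq h2).congr ?_ (by simp) ?_
    · rw [e4, e5, hv', Function.update_comm (by decide), Function.update_idem]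
      rw [Nat.mod_add_mod]
      congr 2
      congr 1
      ring
    · rw [e3, e4, List.append_nil]

theorem ev_group (v : PF → ℕ) (hL : v .L = 0) (hT : v .T = 0) (hX : v .X = 0)
    (hS : v .S ≤ m .S) (hE : v .E < m .E)
    (hSL : m .S = m .L) (hET : m .E * m .T = 4 * m .L) (hXX : m .E ∣ m .X ^ 2) (p : ℕ) :
    Ev m w e group v p v (2 * m .X * (64 * m .L))
      ((List.range (m .X)).flatMap fun x =>
        seg w e (p + x * (64 * m .L) + off m (v .S) ((v .E + x ^ 2) % m .E)) (m .L)) := by
  have h1 := ev_groupX (w := w) (e := e) v hL hT hX hS hE hSL hET hXX p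
  have h2 := ev_loop_skip0 (m := m) (w := w) (e := e) (r := PF.X) (a := skipW) (v := v) hX
    (64 * m .L) (fun i p => ev_skipW _ (by simp [hL]) p) (p + m .X * (64 * m .L))
  exact (h1.seq h2).congr rfl (by ring) (by simp)

theorem ev_row (v : PF → ℕ) (hL : v .L = 0) (hT : v .T = 0) (hX : v .X = 0) (hG : v .G = 0)
    (hS : v .S ≤ m .S) (hE : v .E < m .E)
    (hSL : m .S = m .L) (hET : m .E * m .T = 4 * m .L) (hXX : m .E ∣ m .X ^ 2) (p : ℕ) :
    Ev m w e row v p (Function.update v .E ((v .E + (2 * v .Y + 1)) % m .E))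
      ((m .G * (2 * m .X) + 1) * (64 * m .L))
      ((List.range (m .G)).flatMap fun g => (List.range (m .X)).flatMap fun x =>
        seg w e (p + (g * (2 * m .X) + x) * (64 * m .L) +
          off m (v .S) ((v .E + x ^ 2) % m .E)) (m .L)) := by
  have hm : 0 < m .E := by omega
  have h1 := ev_loop_same (m := m) (w := w) (e := e) (r := PF.G) (a := group) (v := v) hG
    (2 * m .X * (64 * m .L)) (fun g => (List.range (m .X)).flatMap fun x =>
        seg w e (p + (g * (2 * m .X) + x) * (64 * m .L) +
          off m (v .S) ((v .E + x ^ 2) % m .E)) (m .L)) (p := p) (by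
      intro g _
      have := ev_group (m := m) (w := w) (e := e) (Function.update v .G g) (by simp [hL])
        (by simp [hT]) (by simp [hX]) (by simpa using hS) (by simpa using hE) hSL hET hXX
        (p + g * (2 * m .X * (64 * m .L)))
      refine this.congr rfl rfl ?_
      apply List.flatMap_congr
      intro x _
      congr 1
      simp only [ne_eq, reduceCtorEq, not_false_eq_true, Function.update_of_ne]
      congr 1
      ring)
  have h2 := ev_skipW (m := m) (w := w) (e := e) v hL (p + m .G * (2 * m .X * (64 * m .L)))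
  have h3 := ev_updY (m := m) (w := w) (e := e) v hm hE
    (p + m .G * (2 * m .X * (64 * m .L)) + 64 * m .L)
  exact (h1.seq (h2.seq h3)).congr rfl (by ring) (by simp)

theorem ev_skipRows (v : PF → ℕ) (hL : v .L = 0) (hX : v .X = 0) (hG : v .G = 0) (hY : v .Y = 0)
    (p : ℕ) :
    Ev m w e skipRows v p v (m .Y * (m .G * (2 * (m .X * (64 * m .L))))) [] := by
  refine ev_loop_skip0 hY _ (fun y p => ?_) p
  refine ev_loop_skip0 (by simp [hG]) _ (fun g p => ?_) p
  refine ev_rep_skip (fun p => ?_) 2 p
  refine ev_loop_skip0 (by simp [hX]) _ (fun x p => ?_) p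
  exact ev_skipW _ (by simp [hL]) p

theorem ev_rows (v : PF → ℕ) (hL : v .L = 0) (hT : v .T = 0) (hX : v .X = 0) (hG : v .G = 0)
    (hY : v .Y = 0) (hS : v .S ≤ m .S) (hE : v .E = 0) (hE' : 0 < m .E)
    (hSL : m .S = m .L) (hET : m .E * m .T = 4 * m .L) (hXX : m .E ∣ m .X ^ 2)
    (hXY : m .Y = m .X) (p : ℕ) :
    Ev m w e (loop .Y row) v p v (m .Y * ((m .G * (2 * m .X) + 1) * (64 * m .L)))
      ((List.range (m .Y)).flatMap fun y =>
        (List.range (m .G)).flatMap fun g => (List.range (m .X)).flatMap fun x =>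
        seg w e (p + (y * (m .G * (2 * m .X) + 1) + (g * (2 * m .X) + x)) * (64 * m .L) +
          off m (v .S) ((x ^ 2 + y ^ 2) % m .E)) (m .L)) := by
  refine ev_loop (fun i => Function.update v .E (i ^ 2 % m .E)) _ _ ?_ ?_ ?_
  · simp only [ne_eq, OfNat.ofNat_ne_zero, not_false_eq_true, zero_pow, Nat.zero_mod]
    rw [update_zero hE, update_zero hY]
  · obtain ⟨c, hc⟩ := hXX
    rw [hXY, hc, Nat.mul_mod_right, update_zero hE, update_zero hY]
  · intro y _
    set v' := Function.update (Function.update v .E (y ^ 2 % m .E)) .Y y with hv'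
    have e1 : v' .L = 0 := by simp [hv', hL]
    have e2 : v' .T = 0 := by simp [hv', hT]
    have e3 : v' .S = v .S := by simp [hv']
    have e4 : v' .E = y ^ 2 % m .E := by simp [hv']
    have e5 : v' .X = 0 := by simp [hv', hX]
    have e6 : v' .G = 0 := by simp [hv', hG]
    have e7 : v' .Y = y := by simp [hv']
    have h1 := ev_row (m := m) (w := w) (e := e) v' e1 e2 e5 e6 (by rw [e3]; exact hS)
      (by rw [e4]; exact Nat.mod_lt _ hE') hSL hET hXX
      (p + y * ((m .G * (2 * m .X) + 1) * (64 * m .L)))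
    refine h1.congr ?_ rfl ?_
    · rw [e4, e7, hv', Function.update_comm (by decide), Function.update_idem, Nat.mod_add_mod]
      congr 2
      congr 1
      ring
    · apply List.flatMap_congr
      intro g _
      apply List.flatMap_congr
      intro x _
      rw [e3, e4, Nat.mod_add_mod]
      congr 1
      have : (y ^ 2 + x ^ 2) % m .E = (x ^ 2 + y ^ 2) % m .E := by rw [Nat.add_comm]
      rw [this]
      ring

theorem ev_block (v : PF → ℕ) (hL : v .L = 0) (hT : v .T = 0) (hX : v .X = 0) (hG : v .G = 0)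
    (hY : v .Y = 0) (hS : v .S ≤ m .S) (hE : v .E = 0) (hE' : 0 < m .E)
    (hSL : m .S = m .L) (hET : m .E * m .T = 4 * m .L) (hXX : m .E ∣ m .X ^ 2)
    (hXY : m .Y = m .X) (p : ℕ) :
    Ev m w e block v p v ((m .X * (m .G * (2 * m .X)) + (m .X * (m .G * (2 * m .X) + 1) +
      2 * (m .X * (m .G * (2 * m .X))))) * (64 * m .L))
      ((List.range (m .X)).flatMap fun y =>
        (List.range (m .G)).flatMap fun g => (List.range (m .X)).flatMap fun x =>
        seg w e (p + ((m .X + y) * (m .G * (2 * m .X)) + g * (2 * m .X) + (y + x)) *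
          (64 * m .L) + off m (v .S) ((x ^ 2 + y ^ 2) % m .E)) (m .L)) := by
  have h1 := ev_skipRows (m := m) (w := w) (e := e) v hL hX hG hY p
  have h2 := ev_rows (m := m) (w := w) (e := e) v hL hT hX hG hY hS hE hE' hSL hET hXX hXY
    (p + m .Y * (m .G * (2 * (m .X * (64 * m .L)))))
  have h3 := ev_rep_skip (m := m) (w := w) (e := e) (v := v)
    (fun p => ev_skipRows (m := m) (w := w) (e := e) v hL hX hG hY p) 2
    (p + m .Y * (m .G * (2 * (m .X * (64 * m .L)))) +
      m .Y * ((m .G * (2 * m .X) + 1) * (64 * m .L)))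
  refine (h1.seq (h2.seq h3)).congr rfl ?_ ?_
  · rw [hXY]; ring
  · simp only [List.nil_append, List.append_nil]
    rw [hXY]
    apply List.flatMap_congr
    intro y _
    apply List.flatMap_congr
    intro g _
    apply List.flatMap_congr
    intro x _
    congr 1
    ring

/-- size of a block in bits -/
def blk (m : PF → ℕ) : ℕ := (m .X * (m .G * (2 * m .X)) + (m .X * (m .G * (2 * m .X) + 1) +
      2 * (m .X * (m .G * (2 * m .X))))) * (64 * m .L)

theorem ev_blocks (v : PF → ℕ) (hL : v .L = 0) (hT : v .T = 0) (hX : v .X = 0) (hG : v .G = 0)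
    (hY : v .Y = 0) (hK : v .K = 0) (hS : v .S ≤ m .S) (hE : v .E = 0) (hE' : 0 < m .E)
    (hSL : m .S = m .L) (hET : m .E * m .T = 4 * m .L) (hXX : m .E ∣ m .X ^ 2)
    (hXY : m .Y = m .X) (p : ℕ) :
    Ev m w e (seq skipW (loop .K block)) v p v (64 * m .L + m .K * blk m)
      ((List.range (m .K)).flatMap fun k => (List.range (m .X)).flatMap fun y =>
        (List.range (m .G)).flatMap fun g => (List.range (m .X)).flatMap fun x =>
        seg w e (p + 64 * m .L + k * blk m +
          ((m .X + y) * (m .G * (2 * m .X)) + g * (2 * m .X) + (y + x)) *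
          (64 * m .L) + off m (v .S) ((x ^ 2 + y ^ 2) % m .E)) (m .L)) := by
  have h1 := ev_skipW (m := m) (w := w) (e := e) v hL p
  have h2 := ev_loop_same (m := m) (w := w) (e := e) (r := PF.K) (a := block) (v := v) hK
    (blk m) (fun k => (List.range (m .X)).flatMap fun y =>
        (List.range (m .G)).flatMap fun g => (List.range (m .X)).flatMap fun x =>
        seg w e (p + 64 * m .L + k * blk m +
          ((m .X + y) * (m .G * (2 * m .X)) + g * (2 * m .X) + (y + x)) *
          (64 * m .L) + off m (v .S) ((x ^ 2 + y ^ 2) % m .E)) (m .L)) (p := p + 64 * m .L) (by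
      intro k _
      exact ev_block (m := m) (w := w) (e := e) (Function.update v .K k) (by simp [hL])
        (by simp [hT]) (by simp [hX]) (by simp [hG]) (by simp [hY]) (by simpa using hS)
        (by simp [hE]) hE' hSL hET hXX hXY _)
  exact (h1.seq h2).congr rfl rfl (by simp)

theorem ev_prog (hE' : 0 < m .E) (hSL : m .S = m .L) (hs1 : m .s1 < m .L)
    (hET : m .E * m .T = 4 * m .L) (hXX : m .E ∣ m .X ^ 2) (hXY : m .Y = m .X) :
    Ev m w e prog (fun _ => 0) 0 (fun _ => 0) (64 * m .L + m .K * blk m)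
      ((List.range (m .K)).flatMap fun k => (List.range (m .X)).flatMap fun y =>
        (List.range (m .G)).flatMap fun g => (List.range (m .X)).flatMap fun x =>
        seg w e (64 * m .L + k * blk m +
          ((m .X + y) * (m .G * (2 * m .X)) + g * (2 * m .X) + (y + x)) *
          (64 * m .L) + off m (m .s1) ((x ^ 2 + y ^ 2) % m .E)) (m .L)) := by
  have hL : 0 < m .L := by omega
  set v1 : PF → ℕ := Function.update (fun _ => 0) .S (m .s1) with hv1
  have h1 : Ev m w e (loop .s1 (inc .S)) (fun _ => 0) 0 v1 (m .s1 * 0)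
      ((List.range (m .s1)).flatMap fun _ => []) := by
    refine ev_loop (fun i => Function.update (fun _ => 0) .S i) 0 (fun _ => []) ?_ ?_ ?_
    · funext r; cases r <;> rfl
    · funext r; cases r <;> rfl
    · intro i hi
      refine (ev_inc (m := m) (w := w) (e := e) PF.S _ _).congr ?_ rfl rfl
      funext r
      cases r <;> simp [Nat.mod_eq_of_lt (show i + 1 < m .S by omega)]
  have h2 := ev_blocks (m := m) (w := w) (e := e) v1 rfl rfl rfl rfl rfl rfl
    (by show m .s1 ≤ m .S; omega) rfl hE' hSL hET hXX hXY (0 + m .s1 * 0)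
  have h3 : Ev m w e (loop .S nop) v1 (0 + m .s1 * 0 + (64 * m .L + m .K * blk m)) (fun _ => 0)
      ((m .S - v1 .S) * 0) [] := by
    refine ev_loop_skip (by show m .s1 ≤ m .S; omega) ?_ 0 (fun i p => ev_nop _ _) _
    funext r; cases r <;> rfl
  refine (h1.seq (h2.seq h3)).congr rfl (by ring) ?_
  have hv1S : v1 .S = m .s1 := rfl
  simp [hv1S]

end ev

end Post

end Vale.Agent.P338.R2.H525
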