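import Vale.Agent.P338.R2.H525.Prod
import Vale.Agent.P338.R2.H525.Core2

namespace Vale.Agent.P338.R2.H525

open H778 (val bits slots conv spread kap)

theorem tau_eq (D : Dim) (hs : D.s ≤ D.h) : D.tau = 2 ^ (D.h + 1 - D.s) := by
  unfold Dim.tau Dim.L Dim.P
  have : 2 * 2 ^ D.h = 2 ^ (D.h + 1 - D.s) * 2 ^ D.s := by
    rw [← pow_add, ← pow_succ']
    congr 1
    omega
  rw [this, Nat.mul_div_cancel _ (by positivity)]

theorem eG_eq (D : Dim) (hs : D.s ≤ D.h) (d : ℕ) : D.eG d = H778.eG D.h D.s d := by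
  rw [Dim.eG, tau_eq D hs, H778.eG, Dim.P]

theorem eMid_eq (D : Dim) (hs : D.s ≤ D.h) (q c : ℕ) : D.eMid q c = eMid' D.h D.s q c := by
  rw [Dim.eMid, tau_eq D hs, eMid', Dim.P]

theorem ePost_eq (D : Dim) (hs : D.s ≤ D.h) (x y : ℕ) : D.ePost x y = ePost' D.h D.s x y := by
  rw [Dim.ePost, tau_eq D hs, ePost', Dim.P]

theorem eG_lt (D : Dim) (hs : D.s ≤ D.h) (d : ℕ) : D.eG d < 4 * D.L := by
  rw [eG_eq D hs]; exact H778.eG_lt hs d

theorem eMid_le (D : Dim) (hs : D.s ≤ D.h) (q c : ℕ) : D.eMid q c ≤ 4 * D.L := by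
  rw [eMid_eq D hs]; exact eMid'_le hs q c

theorem ePost_le (D : Dim) (hs : D.s ≤ D.h) (x y : ℕ) : D.ePost x y ≤ 4 * D.L := by
  rw [ePost_eq D hs]; exact ePost'_le hs x y

theorem val_ones (n : ℕ) : val (ones n) + 1 = 2 ^ n := by
  induction n with
  | zero => rfl
  | succ n ih =>
    have : ones (n + 1) = ones n ++ [true] := by
      simp [ones, List.replicate_succ']
    rw [this, H778.val_append, H778.val_singleton, pow_succ, ← ih]
    simp
    ring

@[simp] theorem length_ones (n : ℕ) : (ones n).length = n := by simp [ones]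

theorem length_pattern (L : ℕ) : (pattern L).length = 24 * L := by
  rw [pattern, length_flatMap_const _ (4 * L) _ (fun _ _ => by simp; ring)]
  ring

theorem val_pattern (L : ℕ) : val (pattern L) = kap L := by
  have h1 := H778.kap_spec L
  have h2 : 0 < 2 ^ (24 * L) := by positivity
  have hB : ∀ n, (List.range n).flatMap (fun _ => zeros (2 * L) ++ ones (2 * L)) =
      (List.range n).flatMap (fun _ => zeros (2 * L) ++ ones (2 * L)) := fun _ => rfl
  have key : ∀ n, val ((List.range n).flatMap (fun _ => zeros (2 * L) ++ ones (2 * L))) *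
      (2 ^ (2 * L) + 1) + 1 = 2 ^ (4 * L * n) := by
    intro n
    induction n with
    | zero => simp
    | succ n ih =>
      rw [List.range_succ, List.flatMap_append, H778.val_append]
      simp only [List.flatMap_singleton, H778.val_append, val_zeros, List.length_append,
        length_zeros, length_ones]
      have h3 := val_ones (2 * L)
      have h4 : 2 ^ (4 * L * (n + 1)) = 2 ^ (4 * L * n) * 2 ^ (2 * L + 2 * L) := by
        rw [← pow_add]; congr 1; ring
      rw [h4, ← ih]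
      have h5 : 2 ^ (2 * L + 2 * L) = (val (ones (2 * L)) + 1) * (val (ones (2 * L)) + 1) := by
        rw [h3, ← pow_add]
      rw [h5, ← h3]
      ring
  have h6 := key 6
  have h7 : 4 * L * 6 = 24 * L := by ring
  rw [h7] at h6
  have h8 : val (pattern L) * (2 ^ (2 * L) + 1) = kap L * (2 ^ (2 * L) + 1) := by
    rw [h1, pattern]
    omega
  exact Nat.eq_of_mul_eq_mul_right (by positivity) h8

theorem bits_shift (W e a : ℕ) (he : e ≤ W) :
    (bits W a).drop e ++ zeros e = bits W (a * 2 ^ e) := by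
  obtain ⟨u, rfl⟩ := Nat.exists_eq_add_of_le he
  have h1 : bits (e + u) a = bits e (a / 2 ^ u) ++ bits u a := H778.bits_add _ _ _
  rw [h1, List.drop_left' (H778.length_bits _ _), Nat.add_comm e u]
  have h2 := H778.bits_add' u e a 0 (by positivity)
  rw [add_zero] at h2
  rw [h2, bits_zero']

theorem getD_lt (l : List ℕ) (B : ℕ) (hB : 0 < B) (h : ∀ x ∈ l, x < B) (i : ℕ) :
    l.getD i 0 < B := by
  rcases Nat.lt_or_ge i l.length with h1 | h1
  · rw [List.getD_eq_getElem _ _ h1]
    exact h _ (List.getElem_mem h1)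
  · rw [getD_of_le _ _ _ h1]
    exact hB

section

variable (D : Dim) (V : ℕ → ℕ → ℕ → ℕ → List Bool)

/-- values -/
def vv (k x g y : ℕ) : ℕ := 2 * val (V k x g y) + 1

theorem shear_eq (k x g c : ℕ) (hx : x < D.P) :
    shear D (vv V k) x g c = H778.aa D.s (fun x y => val (V k x g y)) x c := by
  unfold shear H778.aa vv
  have hP : D.P = 2 ^ D.s := rfl
  by_cases h : x ≤ c ∧ c - x < 2 ^ D.s
  · rw [if_pos h, if_pos (by omega)]
  · rw [if_neg h, if_neg (by omega)]

theorem Z1_eq (hs : D.s ≤ D.h) (k q g c : ℕ) :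
    ∑ x ∈ Finset.range D.P, shear D (vv V k) x g c * 2 ^ D.eG (D.P + q - x) =
      H778.Z1 D.h D.s (fun x y => val (V k x g y)) q c := by
  unfold H778.Z1
  apply Finset.sum_congr rfl
  intro x hx
  rw [Finset.mem_range] at hx
  rw [shear_eq D V k x g c hx, eG_eq D hs]
  rfl

/-- the twisted values -/
def zz (k q g c : ℕ) : ℕ := Z2' D.h D.s (fun x y => val (V k x g y)) q c

variable (hs1 : 1 ≤ D.s) (hs : D.s ≤ D.h) (hG : 0 < D.G)
  (hV : ∀ k x g y, (V k x g y).length = D.L)

include hV in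
theorem val_V_lt (k x g y : ℕ) : val (V k x g y) < 2 ^ 2 ^ D.h := by
  have := H778.val_lt (V k x g y)
  rw [hV] at this
  exact this

include hV in
theorem dig1_lt (i : ℕ) : dig1 D (vv V) i < 2 ^ (D.L + 1) := by
  apply getD_lt _ _ (by positivity)
  intro x hx
  have h1 : ∀ k x g y, vv V k x g y < 2 ^ (D.L + 1) := by
    intro k x g y
    have := val_V_lt D V hV k x g y
    unfold vv
    rw [pow_succ]
    have hL : 2 ^ D.L = 2 ^ 2 ^ D.h := rfl
    omega
  have h2 : 0 < 2 ^ (D.L + 1) := by positivity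
  simp only [packDigits, blockDigits, rowDigits, List.mem_flatMap, List.mem_append, List.mem_map,
    List.mem_replicate, List.mem_singleton, List.mem_range] at hx
  rcases hx with ⟨k, _, (⟨x', _, (⟨g, _, (⟨y, _, h⟩ | ⟨_, h⟩)⟩ | h)⟩ | ⟨_, h⟩)⟩
  · rw [← h]; exact h1 _ _ _ _
  · rw [h]; exact h2
  · rw [h]; exact h2
  · rw [h]; exact h2

include hs hV in
theorem dig2_lt (i : ℕ) : dig2 D (zz D V) i < 2 ^ (10 * D.L + 1) := by
  apply getD_lt _ _ (by positivity)
  intro x hx
  have h2 : 0 < 2 ^ (10 * D.L + 1) := by positivity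
  simp only [digits2, block2, List.mem_flatMap, List.mem_append, List.mem_map,
    List.mem_replicate, List.mem_range] at hx
  rcases hx with ⟨k, _, (⟨q, _, ⟨g, _, ⟨c, _, h⟩⟩⟩ | ⟨_, h⟩)⟩
  · rw [← h]
    exact Z2'_lt _ hs (fun x y => val_V_lt D V hV k x g y) q c
  · rw [h]; exact h2

theorem genBits1_eq (hs : D.s ≤ D.h) (hG : 0 < D.G) : genBits1 D = slots D.W (2 * D.P * D.R)
    (spread D.R (2 * D.P) (fun d => 2 ^ D.eG d)) := by
  unfold genBits1
  apply genBits_eq D hG
  intro d _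
  have h1 := eG_lt D hs d
  have hL := D.L_pos
  have hlen : (zeros (D.W - 1 - D.eG d) ++ [true] ++ zeros (D.eG d)).length = D.W := by
    simp only [List.length_append, length_zeros, List.length_singleton]
    unfold Dim.W; omega
  have := H778.bits_val (zeros (D.W - 1 - D.eG d) ++ [true] ++ zeros (D.eG d))
  rw [hlen] at this
  rw [← this, H778.val_append, H778.val_append, val_zeros, val_zeros, H778.val_singleton]
  congr 1
  simp

theorem genBits2_eq (hs : D.s ≤ D.h) (hG : 0 < D.G) : genBits2 D = slots D.W (2 * D.P * D.R)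
    (spread D.R (2 * D.P) (fun d => kap D.L * 2 ^ D.eG d)) := by
  unfold genBits2
  apply genBits_eq D hG
  intro d _
  have h1 := eG_lt D hs d
  have hL := D.L_pos
  have hlen : (zeros (40 * D.L - D.eG d) ++ pattern D.L ++ zeros (D.eG d)).length = D.W := by
    simp only [List.length_append, length_zeros, length_pattern]
    unfold Dim.W; omega
  have := H778.bits_val (zeros (40 * D.L - D.eG d) ++ pattern D.L ++ zeros (D.eG d))
  rw [hlen] at this
  rw [← this, H778.val_append, H778.val_append, val_zeros, val_zeros, val_pattern]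
  congr 1
  simp

theorem kap_lt (L : ℕ) : kap L < 2 ^ (24 * L) := by
  have h1 := H778.kap_spec L
  have h2 : 0 < 2 ^ (24 * L) := by positivity
  have h4 : 0 < 2 ^ (2 * L) := by positivity
  have h3 : kap L * 1 ≤ kap L * (2 ^ (2 * L) + 1) := Nat.mul_le_mul_left _ (by omega)
  omega

theorem spread_lt (R n : ℕ) (γ : ℕ → ℕ) (B : ℕ) (hB : 0 < B) (h : ∀ d < n, γ d < B) (i : ℕ) :
    spread R n γ i < B := by
  unfold spread
  split_ifs with h1
  · exact h _ h1.2
  · exact hB

theorem spread_of_le (R n : ℕ) (hR : 0 < R) (γ : ℕ → ℕ) (i : ℕ) (h : n * R ≤ i) :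
    spread R n γ i = 0 := by
  unfold spread
  rw [if_neg]
  rintro ⟨_, h2⟩
  have := (Nat.le_div_iff_mul_le hR).2 h
  omega

theorem two_P_le (hs : D.s ≤ D.h) : 2 * D.P ≤ 2 ^ (D.L + 1) := by
  rw [pow_succ, mul_comm]
  exact Nat.mul_le_mul_right _ (H778.two_pow_s_le hs)

theorem pos1_lt (k r g c : ℕ) (hk : k < D.K) (hr : r < 2 * D.P) (hg : g < D.G)
    (hc : c < 2 * D.P) : D.pos1 k r g c < D.K * D.S1 := by
  have hm := pos_lt_R D g c hg hc
  have h1 : r * D.R + D.R ≤ 2 * D.P * D.R := by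
    calc r * D.R + D.R = (r + 1) * D.R := by ring
      _ ≤ 2 * D.P * D.R := Nat.mul_le_mul_right _ hr
  have h2 : k * D.S1 + D.S1 ≤ D.K * D.S1 := by
    calc k * D.S1 + D.S1 = (k + 1) * D.S1 := by ring
      _ ≤ D.K * D.S1 := Nat.mul_le_mul_right _ hk
  have h3 : D.S1 = D.P * (D.R + 1) + 2 * D.P * D.R := rfl
  unfold Dim.pos1
  omega

theorem pos2_lt (k r g c : ℕ) (hk : k < D.K) (hr : r < 2 * D.P) (hg : g < D.G)
    (hc : c < 2 * D.P) : D.pos2 k r g c < D.K * D.S2 := by
  have hm := pos_lt_R D g c hg hc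
  have h1 : r * D.R + D.R ≤ 2 * D.P * D.R := by
    calc r * D.R + D.R = (r + 1) * D.R := by ring
      _ ≤ 2 * D.P * D.R := Nat.mul_le_mul_right _ hr
  have h2 : k * D.S2 + D.S2 ≤ D.K * D.S2 := by
    calc k * D.S2 + D.S2 = (k + 1) * D.S2 := by ring
      _ ≤ D.K * D.S2 := Nat.mul_le_mul_right _ hk
  have h3 : D.S2 = D.P * D.R + (D.P * (D.R + 1) + 2 * D.P * D.R) := rfl
  unfold Dim.pos2
  omega

include hs hG hV in
/-- **The slots of the first product.** -/
theorem slot_prod1 (n : ℕ) (hn1 : D.K * D.S1 * D.W ≤ n) (hn2 : 2 * D.P * D.R * D.W ≤ n)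
    (k q g c : ℕ) (hk : k < D.K) (hq : q < D.P) (hg : g < D.G) (hc : c < 2 * D.P) :
    slotAt D.W (mulBits n (packBits D V) (genBits1 D)) (1 + D.pos1 k (D.P + q) g c) =
      bits D.W (H778.Z1 D.h D.s (fun x y => val (V k x g y)) q c) := by
  have hR := R_pos D hG
  have hP := D.P_pos
  have hpos := pos1_lt D k (D.P + q) g c hk (by omega) hg hc
  have hγ : ∀ d < 2 * D.P, 2 ^ D.eG d < 2 ^ (4 * D.L) := fun d _ =>
    Nat.pow_lt_pow_right (by norm_num) (eG_lt D hs d)
  have hL := D.L_pos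
  have hW : D.W = 64 * D.L := rfl
  set N := max (D.K * D.S1) (2 * D.P * D.R) with hN
  have hN0 : 0 < N := lt_of_lt_of_le (by omega) (le_max_left _ _)
  have hNn : D.W * N ≤ n := by
    rcases max_choice (D.K * D.S1) (2 * D.P * D.R) with h | h
    · rw [hN, h, mul_comm]; exact hn1
    · rw [hN, h, mul_comm]; exact hn2
  rw [packBits_eq D V hV, genBits1_eq D hs hG,
    slotAt_mulBits D.W n N _ _ _ _ hN0 (le_max_left _ _) (le_max_right _ _) hNn]
  · rw [← Z1_eq D V hs, ← conv1 D (vv V) (fun d => 2 ^ D.eG d) k q g c hk hq hg hc]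
    rfl
  · exact fun i hi => dig1_of_le D _ i hi
  · exact fun i hi => spread_of_le _ _ hR _ _ hi
  · intro i
    exact lt_of_lt_of_le (dig1_lt D V hV i) (Nat.pow_le_pow_right (by norm_num) (by omega))
  · intro i
    refine spread_lt _ _ _ _ (by positivity) (fun d hd => lt_of_lt_of_le (hγ d hd)
      (Nat.pow_le_pow_right (by norm_num) (by omega))) i
  · intro c
    refine lt_of_lt_of_le (H778.conv_spread_lt D.R (2 * D.P) (by omega) _ _ (2 ^ (D.L + 1))
      (2 ^ (4 * D.L)) (dig1_lt D V hV) hγ c hR) ?_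
    calc 2 * D.P * (2 ^ (D.L + 1) * 2 ^ (4 * D.L))
        ≤ 2 ^ (D.L + 1) * (2 ^ (D.L + 1) * 2 ^ (4 * D.L)) :=
          Nat.mul_le_mul_right _ (two_P_le D hs)
      _ = 2 ^ ((D.L + 1) + ((D.L + 1) + 4 * D.L)) := by rw [← pow_add, ← pow_add]
      _ ≤ 2 ^ D.W := Nat.pow_le_pow_right (by norm_num) (by omega)
  · have : D.K * D.S1 ≤ N := le_max_left _ _
    omega

include hs hG hV in
theorem midBits_eq (n : ℕ) (hn1 : D.K * D.S1 * D.W ≤ n) (hn2 : 2 * D.P * D.R * D.W ≤ n) :
    midBits D (mulBits n (packBits D V) (genBits1 D)) =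
      slots D.W (D.K * D.S2) (dig2 D (zz D V)) := by
  have h1 : midBits D (mulBits n (packBits D V) (genBits1 D)) =
      (digits2 D (zz D V)).flatMap (bits D.W) := by
    unfold midBits digits2 block2
    simp only [List.flatMap_append, List.flatMap_assoc, List.flatMap_map, zeros_mul]
    apply List.flatMap_congr
    intro k hk
    congr 1
    apply List.flatMap_congr
    intro q hq
    apply List.flatMap_congr
    intro g hg
    apply List.flatMap_congr
    intro c hc
    rw [List.mem_range] at hk hq hg hc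
    have hL := D.L_pos
    have h4 := eMid_le D hs q c
    rw [slot_prod1 D V hs hG hV n hn1 hn2 k q g c hk hq hg hc, bits_shift _ _ _ (by
      unfold Dim.W; omega), eMid_eq D hs]
    rfl
  rw [h1, flatMap_bits_eq_slots, length_digits2]
  rfl

include hs hG hV in
theorem slot_prod2 (n : ℕ) (hn2 : 2 * D.P * D.R * D.W ≤ n) (hn3 : D.K * D.S2 * D.W ≤ n)
    (k y g c : ℕ) (hk : k < D.K) (hy : y < D.P) (hg : g < D.G) (hc : c < 2 * D.P) :
    slotAt D.W (mulBits n (slots D.W (D.K * D.S2) (dig2 D (zz D V))) (genBits2 D))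
      (1 + D.pos2 k (D.P + y) g c) =
      bits D.W (kap D.L * Z3' D.h D.s (fun x y => val (V k x g y)) y c) := by
  have hR := R_pos D hG
  have hP := D.P_pos
  have hpos := pos2_lt D k (D.P + y) g c hk (by omega) hg hc
  have hγ : ∀ d < 2 * D.P, kap D.L * 2 ^ D.eG d < 2 ^ (28 * D.L) := fun d _ => by
    have h1 := kap_lt D.L
    have h2 : 2 ^ D.eG d ≤ 2 ^ (4 * D.L) := Nat.pow_le_pow_right (by norm_num) (eG_lt D hs d).le
    calc kap D.L * 2 ^ D.eG d < 2 ^ (24 * D.L) * 2 ^ (4 * D.L) :=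
        Nat.mul_lt_mul_of_lt_of_le h1 h2 (by positivity)
      _ = 2 ^ (28 * D.L) := by rw [← pow_add]; congr 1; ring
  have hL := D.L_pos
  have hW : D.W = 64 * D.L := rfl
  set N := max (D.K * D.S2) (2 * D.P * D.R) with hN
  have hN0 : 0 < N := lt_of_lt_of_le (by omega) (le_max_left _ _)
  have hNn : D.W * N ≤ n := by
    rcases max_choice (D.K * D.S2) (2 * D.P * D.R) with h | h
    · rw [hN, h, mul_comm]; exact hn3
    · rw [hN, h, mul_comm]; exact hn2
  rw [genBits2_eq D hs hG,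
    slotAt_mulBits D.W n N _ _ _ _ hN0 (le_max_left _ _) (le_max_right _ _) hNn]
  · congr 1
    rw [conv2 D (zz D V) (fun d => kap D.L * 2 ^ D.eG d) k y g c hk hy hg hc, Z3',
      Finset.mul_sum]
    apply Finset.sum_congr rfl
    intro q _
    rw [eG_eq D hs]
    show Z2' _ _ _ _ _ * _ = _
    unfold Dim.P
    ring
  · exact fun i hi => dig2_of_le D _ i hi
  · exact fun i hi => spread_of_le _ _ hR _ _ hi
  · intro i
    exact lt_of_lt_of_le (dig2_lt D V hs hV i) (Nat.pow_le_pow_right (by norm_num) (by omega))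
  · intro i
    refine spread_lt _ _ _ _ (by positivity) (fun d hd => lt_of_lt_of_le (hγ d hd)
      (Nat.pow_le_pow_right (by norm_num) (by omega))) i
  · intro c
    refine lt_of_lt_of_le (H778.conv_spread_lt D.R (2 * D.P) (by omega) _ _
      (2 ^ (10 * D.L + 1)) (2 ^ (28 * D.L)) (dig2_lt D V hs hV) hγ c hR) ?_
    calc 2 * D.P * (2 ^ (10 * D.L + 1) * 2 ^ (28 * D.L))
        ≤ 2 ^ (D.L + 1) * (2 ^ (10 * D.L + 1) * 2 ^ (28 * D.L)) :=
          Nat.mul_le_mul_right _ (two_P_le D hs)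
      _ = 2 ^ ((D.L + 1) + ((10 * D.L + 1) + 28 * D.L)) := by rw [← pow_add, ← pow_add]
      _ ≤ 2 ^ D.W := Nat.pow_le_pow_right (by norm_num) (by omega)
  · have : D.K * D.S2 ≤ N := le_max_left _ _
    omega

include hs1 hs hG hV in
/-- **One round exchanges the two index groups.** -/
theorem roundBits_eq (n : ℕ) (hn2 : 2 * D.P * D.R * D.W ≤ n) (hn3 : D.K * D.S2 * D.W ≤ n) :
    roundBits D n V = inputBits D (fun k x g y => V k y g x) := by
  have hn1 : D.K * D.S1 * D.W ≤ n := by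
    refine le_trans (Nat.mul_le_mul_right _ (Nat.mul_le_mul_left _ ?_)) hn3
    unfold Dim.S1 Dim.S2
    omega
  have hs2 : D.s + 1 ≤ D.L := by
    have : D.h < 2 ^ D.h := Nat.lt_two_pow_self
    unfold Dim.L
    omega
  rw [roundBits, midBits_eq D V hs hG hV n hn1 hn2, postBits, inputBits]
  apply List.flatMap_congr
  intro k hk
  apply List.flatMap_congr
  intro y hy
  apply List.flatMap_congr
  intro g hg
  apply List.flatMap_congr
  intro x hx
  rw [List.mem_range] at hk hy hg hx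
  rw [slot_prod2 D V hs hG hV n hn2 hn3 k y g (y + x) hk hy hg (by omega)]
  have h4 := ePost_le D hs x y
  have hL := D.L_pos
  have h5 : 41 * D.L - (D.s + 1) + D.ePost x y =
      D.W - (22 * D.L + (D.s + 1) - D.ePost x y) - D.L := by
    unfold Dim.W
    omega
  rw [h5, H778.drop_take_bits _ _ _ _ (by unfold Dim.W; omega)]
  have hcore := core' (h := D.h) (s := D.s) (fun x y => val (V k x g y)) hs hs1
    (fun x y => val_V_lt D V hV k x g y) x y hx hy
  rw [← H778.bits_mod, ePost_eq D hs]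
  have h6 : kap D.L * Z3' D.h D.s (fun x y => val (V k x g y)) y (y + x) /
      2 ^ (22 * D.L + (D.s + 1) - ePost' D.h D.s x y) % 2 ^ D.L = val (V k x g y) := hcore
  rw [h6]
  have h7 := H778.bits_val (V k x g y)
  rw [hV] at h7
  exact h7

end

end Vale.Agent.P338.R2.H525
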