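import Vale.Agent.P338.R2.H525.PostPass
import Vale.Agent.P338.R2.H525.Round

namespace Vale.Agent.P338.R2.H525

open H806 H806.LP H898

theorem seg_map {α : Type} (z : List Bool) (f : Bool → α) (e : α) (p n : ℕ)
    (h : p + n ≤ z.length) : seg (z.map f) e p n = ((z.drop p).take n).map f := by
  rw [seg_eq e (by simpa using h), List.map_take, List.map_drop]

theorem slotAt_drop_take (W : ℕ) (z : List Bool) (t a L : ℕ) (h : a + L ≤ W) :
    ((slotAt W z t).drop a).take L = (z.drop (t * W + a)).take L := by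
  rw [slotAt, List.drop_take, List.take_take, List.drop_drop, Nat.min_eq_left (by omega)]

theorem slotAt_drop (W : ℕ) (z : List Bool) (t a : ℕ) :
    (slotAt W z t).drop a = (z.drop (t * W + a)).take (W - a) := by
  rw [slotAt, List.drop_take, List.drop_drop]

theorem uses_rep {F α : Type} [DecidableEq F] (n : ℕ) (hn : n ≠ 0) (a : LP F α) :
    (rep n a).uses = a.uses := by
  have h : ∀ n, (rep (n + 1) a).uses = a.uses := by
    intro n
    induction n with
    | zero => simp [rep, uses]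
    | succ n ih => rw [rep, uses, ih, Finset.union_self]
  obtain ⟨k, rfl⟩ := Nat.exists_eq_succ_of_ne_zero hn
  exact h k

theorem writes_rep {F α : Type} [DecidableEq F] (n : ℕ) (hn : n ≠ 0) (a : LP F α) :
    (rep n a).writes = a.writes := by
  have h : ∀ n, (rep (n + 1) a).writes = a.writes := by
    intro n
    induction n with
    | zero => simp [rep, writes]
    | succ n ih => rw [rep, writes, ih, Finset.union_self]
  obtain ⟨k, rfl⟩ := Nat.exists_eq_succ_of_ne_zero hn
  exact h k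

theorem WF_rep {F α : Type} [DecidableEq F] (n : ℕ) (hn : n ≠ 0) (a : LP F α) :
    (rep n a).WF ↔ a.WF := by
  have h : ∀ n, (rep (n + 1) a).WF ↔ a.WF := by
    intro n
    induction n with
    | zero => simp [rep, WF]
    | succ n ih => rw [rep, WF, ih, and_self_iff]
  obtain ⟨k, rfl⟩ := Nat.exists_eq_succ_of_ne_zero hn
  exact h k

namespace Post

/-- the lengths of the rulers -/
def lens (D : Dim) : PF → ℕ
  | .I => 1
  | .O => 1
  | .K => D.K
  | .X => D.P
  | .Y => D.P
  | .G => D.G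
  | .L => D.L
  | .T => D.tau
  | .E => 2 * D.P
  | .S => D.L
  | .s1 => D.s + 1

theorem tau_mul (D : Dim) (hs : D.s ≤ D.h) : 2 * D.P * D.tau = 4 * D.L := by
  rw [tau_eq D hs]
  have := four_L (h := D.h) (s := D.s) hs
  unfold Dim.P Dim.L
  linarith

theorem sq_dvd (D : Dim) (hs1 : 1 ≤ D.s) : 2 * D.P ∣ D.P ^ 2 := by
  refine ⟨2 ^ (D.s - 1), ?_⟩
  unfold Dim.P
  rw [← pow_mul, mul_assoc, ← pow_add, ← pow_succ']
  congr 1
  omega

theorem post_ev {α : Type} (D : Dim) (hs1 : 1 ≤ D.s) (hs : D.s ≤ D.h) (hs2 : D.s + 1 < D.L)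
    (z : List Bool) (hz : D.K * D.S2 * D.W + D.W ≤ z.length) (f : Bool → α) (e : α) :
    Ev (lens D) (z.map f) e prog (fun _ => 0) 0 (fun _ => 0)
      (64 * D.L + D.K * blk (lens D)) ((postBits D z).map f) := by
  have hP := D.P_pos
  have hL := D.L_pos
  have h1 := ev_prog (m := lens D) (w := z.map f) (e := e) (by show 0 < 2 * D.P; omega) rfl hs2
    (tau_mul D hs) (sq_dvd D hs1) rfl
  refine h1.congr rfl rfl ?_
  unfold postBits
  simp only [List.map_flatMap]
  apply List.flatMap_congr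
  intro k hk
  apply List.flatMap_congr
  intro y hy
  apply List.flatMap_congr
  intro g hg
  apply List.flatMap_congr
  intro x hx
  rw [List.mem_range] at hk hy hg hx
  change k < D.K at hk
  change y < D.P at hy
  change g < D.G at hg
  change x < D.P at hx
  have hR : D.G * (2 * D.P) = D.R := by unfold Dim.R; ring
  have hS2 : blk (lens D) = D.S2 * D.W := by
    show (D.P * (D.G * (2 * D.P)) + (D.P * (D.G * (2 * D.P) + 1) +
      2 * (D.P * (D.G * (2 * D.P))))) * (64 * D.L) = _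
    rw [hR]
    unfold Dim.S2 Dim.W
    ring
  have hpos := pos2_lt D k (D.P + y) g (y + x) hk (by omega) hg (by omega)
  have he : (2 * D.P - (x ^ 2 + y ^ 2) % (2 * D.P)) * D.tau = D.ePost x y := by
    rw [Dim.ePost, mul_comm]
  have he2 := ePost_le D hs x y
  have hoff : off (lens D) (D.s + 1) ((x ^ 2 + y ^ 2) % (2 * D.P)) =
      41 * D.L - (D.s + 1) + D.ePost x y := by
    show 40 * D.L + (D.L - (D.s + 1)) + (2 * D.P - (x ^ 2 + y ^ 2) % (2 * D.P)) * D.tau = _
    rw [he]
    omega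
  have hW : D.W = 64 * D.L := rfl
  rw [slotAt_drop_take _ _ _ _ _ (by omega)]
  have hp : 64 * D.L + k * blk (lens D) +
      ((D.P + y) * (D.G * (2 * D.P)) + g * (2 * D.P) + (y + x)) * (64 * D.L) +
      off (lens D) (D.s + 1) ((x ^ 2 + y ^ 2) % (2 * D.P)) =
      (1 + D.pos2 k (D.P + y) g (y + x)) * D.W + (41 * D.L - (D.s + 1) + D.ePost x y) := by
    rw [hoff, hS2, hR, hW]
    unfold Dim.pos2
    ring
  show seg (z.map f) e (64 * D.L + k * blk (lens D) +
      ((D.P + y) * (D.G * (2 * D.P)) + g * (2 * D.P) + (y + x)) * (64 * D.L) +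
      off (lens D) (D.s + 1) ((x ^ 2 + y ^ 2) % (2 * D.P))) D.L = _
  rw [hp]
  apply seg_map
  have h2 : (1 + D.pos2 k (D.P + y) g (y + x)) * D.W + D.W ≤ D.K * D.S2 * D.W + D.W := by
    have : (1 + D.pos2 k (D.P + y) g (y + x)) * D.W ≤ (D.K * D.S2) * D.W :=
      Nat.mul_le_mul_right _ (by omega)
    omega
  omega

theorem bd_seq {F α : Type} (m : F → ℕ) (a b : LP F α) : bd m (seq a b) = bd m a + bd m b := rfl

theorem bd_le {α : Type} (D : Dim) (hK : 0 < D.K) (hG : 0 < D.G) (hs : D.s ≤ D.h) (hs2 : D.s + 1 < D.L) :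
    bd (lens D) (prog : LP PF α) + 2 ≤ 3400 * (D.K * (D.P * (D.G * (D.P * D.L)))) := by
  have hP := D.P_pos
  have hL := D.L_pos
  have hPL : D.P ≤ D.L := Nat.pow_le_pow_right (by norm_num) hs
  have hτ := tau_mul D hs
  have b1 : bd (lens D) (loop PF.L skip : LP PF α) ≤ 5 * D.L := by
    show D.L * (1 + 2) + 2 ≤ _
    omega
  have b2 : bd (lens D) (skipW : LP PF α) ≤ 321 * D.L := by
    rw [skipW, bd_rep]; omega
  have b3 : bd (lens D) (slot : LP PF α) ≤ 369 * D.L := by
    have e1 : bd (lens D) (forCo PF.S skip : LP PF α) ≤ 10 * D.L := by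
      show D.L * (1 + 4) + 5 ≤ _
      omega
    have e2 : bd (lens D) (forCo PF.E (loop PF.T skip) : LP PF α) ≤ 29 * D.L := by
      show 2 * D.P * (D.tau * (1 + 2) + 2 + 4) + 5 ≤ _
      have : 2 * D.P * (D.tau * (1 + 2) + 2 + 4) = 3 * (2 * D.P * D.tau) + 12 * D.P := by ring
      omega
    have e3 : bd (lens D) (loop PF.L copy : LP PF α) ≤ 7 * D.L := by
      show D.L * (3 + 2) + 2 ≤ _
      omega
    have e4 : bd (lens D) (forReg PF.S skip : LP PF α) ≤ 7 * D.L := by
      show D.L * (1 + 2) + 4 ≤ _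
      omega
    have e5 : bd (lens D) (forReg PF.E (loop PF.T skip) : LP PF α) ≤ 24 * D.L := by
      show 2 * D.P * (D.tau * (1 + 2) + 2 + 2) + 4 ≤ _
      have : 2 * D.P * (D.tau * (1 + 2) + 2 + 2) = 3 * (2 * D.P * D.tau) + 8 * D.P := by ring
      omega
    have e6 : bd (lens D) (rep 40 (loop PF.L skip) : LP PF α) ≤ 201 * D.L := by
      rw [bd_rep]; omega
    have e7 : bd (lens D) (rep 18 (loop PF.L skip) : LP PF α) ≤ 91 * D.L := by
      rw [bd_rep]; omega
    unfold slot
    simp only [bd_seq]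
    omega
  have b4 : bd (lens D) (updX : LP PF α) ≤ 16 * D.L := by
    show D.P * (bd (lens D) (rep 2 (inc PF.E)) + 2) + 4 + 3 ≤ _
    rw [bd_rep]
    show D.P * (2 * 3 + 1 + 2) + 4 + 3 ≤ _
    omega
  have b5 : bd (lens D) (updY : LP PF α) ≤ 16 * D.L := by
    show D.P * (bd (lens D) (rep 2 (inc PF.E)) + 2) + 4 + 3 ≤ _
    rw [bd_rep]
    show D.P * (2 * 3 + 1 + 2) + 4 + 3 ≤ _
    omega
  have hPL1 : 0 < D.P * D.L := Nat.mul_pos hP hL
  have hPL2 : D.L ≤ D.P * D.L := Nat.le_mul_of_pos_left _ hP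
  have b6 : bd (lens D) (loop PF.X (seq slot updX) : LP PF α) ≤ 389 * (D.P * D.L) := by
    show D.P * (bd (lens D) (slot : LP PF α) + bd (lens D) (updX : LP PF α) + 2) + 2 ≤ _
    have : D.P * (bd (lens D) (slot : LP PF α) + bd (lens D) (updX : LP PF α) + 2) ≤
      D.P * (387 * D.L) := Nat.mul_le_mul_left _ (by omega)
    have : D.P * (387 * D.L) = 387 * (D.P * D.L) := by ring
    omega
  have b7 : bd (lens D) (loop PF.X skipW : LP PF α) ≤ 325 * (D.P * D.L) := by
    show D.P * (bd (lens D) (skipW : LP PF α) + 2) + 2 ≤ _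
    have : D.P * (bd (lens D) (skipW : LP PF α) + 2) ≤
      D.P * (323 * D.L) := Nat.mul_le_mul_left _ (by omega)
    have : D.P * (323 * D.L) = 323 * (D.P * D.L) := by ring
    omega
  have b8 : bd (lens D) (group : LP PF α) ≤ 714 * (D.P * D.L) := by
    show bd (lens D) (loop PF.X (seq slot updX) : LP PF α) +
      bd (lens D) (loop PF.X skipW : LP PF α) ≤ _
    omega
  have hG1 : 0 < D.G * (D.P * D.L) := Nat.mul_pos hG hPL1
  have hG2 : D.P * D.L ≤ D.G * (D.P * D.L) := Nat.le_mul_of_pos_left _ hG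
  have b9 : bd (lens D) (loop PF.G group : LP PF α) ≤ 718 * (D.G * (D.P * D.L)) := by
    show D.G * (bd (lens D) (group : LP PF α) + 2) + 2 ≤ _
    have : D.G * (bd (lens D) (group : LP PF α) + 2) ≤
      D.G * (716 * (D.P * D.L)) := Nat.mul_le_mul_left _ (by omega)
    have : D.G * (716 * (D.P * D.L)) = 716 * (D.G * (D.P * D.L)) := by ring
    omega
  have b10 : bd (lens D) (row : LP PF α) ≤ 1055 * (D.G * (D.P * D.L)) := by
    show bd (lens D) (loop PF.G group : LP PF α) + (bd (lens D) (skipW : LP PF α) +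
      bd (lens D) (updY : LP PF α)) ≤ _
    omega
  have b11 : bd (lens D) (loop PF.Y row : LP PF α) ≤ 1059 * (D.P * (D.G * (D.P * D.L))) := by
    show D.P * (bd (lens D) (row : LP PF α) + 2) + 2 ≤ _
    have : D.P * (bd (lens D) (row : LP PF α) + 2) ≤
      D.P * (1057 * (D.G * (D.P * D.L))) := Nat.mul_le_mul_left _ (by omega)
    have : D.P * (1057 * (D.G * (D.P * D.L))) = 1057 * (D.P * (D.G * (D.P * D.L))) := by ring
    have : 0 < D.P * (D.G * (D.P * D.L)) := Nat.mul_pos hP hG1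
    omega
  have b12 : bd (lens D) (skipRows : LP PF α) ≤ 659 * (D.P * (D.G * (D.P * D.L))) := by
    have c1 : bd (lens D) (rep 2 (loop PF.X skipW) : LP PF α) ≤ 651 * (D.P * D.L) := by
      rw [bd_rep]; omega
    have c2 : bd (lens D) (loop PF.G (rep 2 (loop PF.X skipW)) : LP PF α) ≤
        655 * (D.G * (D.P * D.L)) := by
      show D.G * (bd (lens D) (rep 2 (loop PF.X skipW) : LP PF α) + 2) + 2 ≤ _
      have : D.G * (bd (lens D) (rep 2 (loop PF.X skipW) : LP PF α) + 2) ≤
        D.G * (653 * (D.P * D.L)) := Nat.mul_le_mul_left _ (by omega)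
      have : D.G * (653 * (D.P * D.L)) = 653 * (D.G * (D.P * D.L)) := by ring
      omega
    show D.P * (bd (lens D) (loop PF.G (rep 2 (loop PF.X skipW)) : LP PF α) + 2) + 2 ≤ _
    have : D.P * (bd (lens D) (loop PF.G (rep 2 (loop PF.X skipW)) : LP PF α) + 2) ≤
      D.P * (657 * (D.G * (D.P * D.L))) := Nat.mul_le_mul_left _ (by omega)
    have : D.P * (657 * (D.G * (D.P * D.L))) = 657 * (D.P * (D.G * (D.P * D.L))) := by ring
    have : 0 < D.P * (D.G * (D.P * D.L)) := Nat.mul_pos hP hG1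
    omega
  have hQ1 : 0 < D.P * (D.G * (D.P * D.L)) := Nat.mul_pos hP hG1
  have b13 : bd (lens D) (block : LP PF α) ≤ 3037 * (D.P * (D.G * (D.P * D.L))) := by
    show bd (lens D) (skipRows : LP PF α) + (bd (lens D) (loop PF.Y row : LP PF α) +
      bd (lens D) (rep 2 skipRows : LP PF α)) ≤ _
    rw [bd_rep]
    omega
  have hK1 : 0 < D.K * (D.P * (D.G * (D.P * D.L))) := Nat.mul_pos hK hQ1
  have b14 : bd (lens D) (loop PF.K block : LP PF α) ≤
      3041 * (D.K * (D.P * (D.G * (D.P * D.L)))) := by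
    show D.K * (bd (lens D) (block : LP PF α) + 2) + 2 ≤ _
    have : D.K * (bd (lens D) (block : LP PF α) + 2) ≤
      D.K * (3039 * (D.P * (D.G * (D.P * D.L)))) := Nat.mul_le_mul_left _ (by omega)
    have : D.K * (3039 * (D.P * (D.G * (D.P * D.L)))) =
      3039 * (D.K * (D.P * (D.G * (D.P * D.L)))) := by ring
    omega
  have hLK : D.L ≤ D.K * (D.P * (D.G * (D.P * D.L))) := by
    calc D.L ≤ D.P * D.L := hPL2
      _ ≤ D.G * (D.P * D.L) := hG2
      _ ≤ D.P * (D.G * (D.P * D.L)) := Nat.le_mul_of_pos_left _ hP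
      _ ≤ _ := Nat.le_mul_of_pos_left _ hK
  show ((D.s + 1) * (3 + 2) + 2) + ((bd (lens D) (skipW : LP PF α) +
    bd (lens D) (loop PF.K block : LP PF α)) + (D.L * (1 + 2) + 2)) + 2 ≤ _
  omega

theorem wf {α : Type} : (prog : LP PF α).WF := by
  simp [prog, block, skipRows, row, group, updX, updY, slot, skipW, WF_rep, uses_rep, writes_rep,
    WF, uses, writes]

theorem uses_prog {α : Type} :
    (prog : LP PF α).uses = {.K, .X, .Y, .G, .L, .T, .E, .S, .s1} := by
  simp only [prog, block, skipRows, row, group, updX, updY, slot, skipW, uses_rep, uses, ne_eq,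
    OfNat.ofNat_ne_zero, not_false_eq_true]
  decide

attribute [local irreducible] prog

theorem ne_IO {α : Type} (r : PF) (hr : r ∈ (prog : LP PF α).uses) : r ≠ .I ∧ r ≠ .O := by
  rw [uses_prog] at hr
  revert hr
  cases r <;> decide

theorem I_uses {α : Type} : PF.I ∉ (prog : LP PF α).uses := fun h => (ne_IO _ h).1 rfl

theorem O_uses {α : Type} : PF.O ∉ (prog : LP PF α).uses := fun h => (ne_IO _ h).2 rfl

/-- **The post pass.** -/
theorem post_run {M α : Type} [DecidableEq α] {d : α} (D : Dim) (hs1 : 1 ≤ D.s) (hs : D.s ≤ D.h)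
    (hs2 : D.s + 1 < D.L) (hK : 0 < D.K) (hG : 0 < D.G)
    (x : List Bool) (hx : D.K * D.S2 * D.W + D.W ≤ x.length) (f : Bool → α) (one mk e : α)
    (hmk : one ≠ mk) (mem : M) (z : PF → Zip α) (hzI : z .I = ⟨[], x.map f⟩)
    (hzO : z .O = ⟨[], []⟩)
    (hz : ∀ r, r ≠ .I → r ≠ .O → z r = ⟨[], List.replicate (lens D r) one⟩) :
    Prog.Run d (passP .I .O one mk e prog) ⟨mem, z⟩
      (3400 * (D.K * (D.P * (D.G * (D.P * D.L)))))
      ⟨mem, Function.update z .O ⟨[], (postBits D x).map f⟩⟩ := by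
  have hP := D.P_pos
  have hL := D.L_pos
  have hτ : 0 < D.tau := by
    have := tau_mul D hs
    rcases Nat.eq_zero_or_pos D.tau with h | h
    · rw [h] at this; omega
    · exact h
  have h := run_pass (d := d) prog wf .I .O (by decide) I_uses O_uses one mk e hmk mem z
    (x.map f) (lens D) hzI hzO
    (by
      intro r hr
      exact ⟨_, hz r (ne_IO r hr).1 (ne_IO r hr).2, by simp, fun _ => rfl⟩)
    (by
      intro r _
      cases r <;> simp only [lens] <;> omega)
    (fun _ _ => rfl) (post_ev D hs1 hs hs2 x hx f e)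
  exact h.mono (bd_le D hK hG hs hs2)

end Post

end Vale.Agent.P338.R2.H525
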