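import Vale.Agent.P338.R2.H525.Round
import Vale.Agent.P338.R2.H525.DBits

namespace Vale.Agent.P338.R2.H525

/-- One round on the matrix layout: the index bits `h - s, …, h - 1` are exchanged. -/
theorem round_dBits (l h s n : ℕ) (hs1 : 1 ≤ s) (hsh : s ≤ h - s) (hl : h ≤ l)
    (hn : 576 * 4 ^ l ≤ n) (M : ℕ → ℕ → Bool) :
    roundBits (dimOf l h s) n (wordOf l h s M) = dBits l (h - s) M := by
  have hG : 0 < (dimOf l h s).G := by rw [dimOf_G]; positivity
  have hK : 0 < (dimOf l h s).K := by rw [dimOf_K]; positivity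
  have hsize := dimOf_size l h s (by omega) hl
  have h1 := dim_bound (dimOf l h s) hG
  have h2 := dim_bound' (dimOf l h s) hK
  rw [hsize] at h1 h2
  rw [dBits_eq_swapped l h s (by omega) hl]
  exact roundBits_eq (dimOf l h s) (wordOf l h s M) hs1 hsh hG
    (fun k x g y => length_wordOf l h s M k x g y) n (h2.trans hn) (h1.trans hn)

/-- The direct exchange of one index bit. -/
theorem direct_dBits (l h : ℕ) (hh : 1 ≤ h) (hl : h ≤ l) (M : ℕ → ℕ → Bool) :
    dBits l h M = inputBits (dimOf l h 1) (wordOf l h 1 M) ∧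
    dBits l (h - 1) M = inputBits (dimOf l h 1) (fun k x g y => wordOf l h 1 M k y g x) :=
  ⟨dBits_eq_input l h 1 hh hl M, dBits_eq_swapped l h 1 hh hl M⟩

end Vale.Agent.P338.R2.H525
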